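import Vale.Agent.P305E.WpLoop
import Vale.Agent.P305E.GraphIO
import Vale.Agent.P305F.BipDefs
import Vale.Agent.P305F.End1

/-!
# Virtual time: a triple for programs that call Las Vegas routines

`Vt d B m Q` says that `m` behaves like a computation whose result `b` and *virtual* time `s`
satisfy `Q b s` on all paths; every unit of virtual time pays one unit of expected time and a
failure probability of `2 ^ (-d)`. The rules are those of `Tri`.
-/

namespace Vale.Agent.P305C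

open Vale.Agent.P305E Vale.Agent.P305F

variable {α β γ σ : Type} {d B : ℕ}

/-- The triple with virtual time. -/
def Vt (d B : ℕ) (m : M β) (Q : β → ℕ → Prop) : Prop :=
  ∀ (τ C : ℝ) (F : β → ℕ → ℝ), 0 ≤ τ → (∀ b t, 0 ≤ F b t) → (∀ b t, F b t ≤ 1) →
    (∀ b s t, Q b s → F b t + (τ + 1 / 2 ^ d) * s ≤ C + τ * t) → wp B m F 1 ≤ C

theorem Vt.mono {m : M β} {Q Q' : β → ℕ → Prop} (h : Vt d B m Q) (hQ : ∀ b t, Q b t → Q' b t) :
    Vt d B m Q' := fun τ C F h1 h2 h3 h4 => h τ C F h1 h2 h3 fun b s t hb => h4 b s t (hQ b s hb)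

/-- A smaller `d` allows more failures. -/
theorem Vt.anti {m : M β} {Q : β → ℕ → Prop} {d' : ℕ} (h : Vt d B m Q) (hd : d' ≤ d) :
    Vt d' B m Q := fun τ C F h1 h2 h3 h4 => h τ C F h1 h2 h3 fun b s t hb => by
  have a : (1 : ℝ) / 2 ^ d ≤ 1 / 2 ^ d' :=
    one_div_le_one_div_of_le (by positivity) (pow_le_pow_right₀ (by norm_num) hd)
  have := mul_le_mul_of_nonneg_right a (Nat.cast_nonneg (α := ℝ) s)
  have := h4 b s t hb
  nlinarith

/-- Every triple for all paths is a triple with virtual time. -/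
theorem Vt.of_tri {cn : Bool} {m : M β} {Q : β → ℕ → Prop} (h : Tri ⟨B, cn⟩ m Q) :
    Vt d B m Q := fun τ C F _ _ _ h4 =>
  wp_le_const_of_Tri (c := ⟨B, cn⟩) h (fun b t hb => by
    have := h4 b t t hb
    have a : (0 : ℝ) ≤ 1 / 2 ^ d * t := by positivity
    nlinarith) 1

theorem Vt.pure {b : β} {Q : β → ℕ → Prop} (h : Q b 0) : Vt d B (pure b) Q :=
  Vt.of_tri (cn := true) h

/-- Sequencing. -/
theorem Vt.bind {m : M α} {f : α → M β} {P : α → ℕ → Prop} {Q : β → ℕ → Prop} (h : Vt d B m P)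
    (hf : ∀ a t, P a t → Vt d B (f a) fun b t' => Q b (t + t')) : Vt d B (m >>= f) Q := by
  intro τ C F h1 h2 h3 h4
  rw [wp_bind]
  refine h τ C _ h1 (fun a t => wp_nonneg (fun _ _ => h2 _ _) zero_le_one)
    (fun a t => wp_le_const (fun _ _ => h3 _ _) le_rfl) fun a s t ha => ?_
  have := hf a s ha τ (C + τ * t - (τ + 1 / 2 ^ d) * s) (fun b t' => F b (t + t')) h1
    (fun _ _ => h2 _ _) (fun _ _ => h3 _ _) fun b s' t' hb => by
      have := h4 b (s + s') (t + t') hb
      push_cast at this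
      linarith
  linarith

/-- Sequencing in the style of `Tri_bind`. -/
theorem Vt.bind' {m : M α} {f : α → M β} {Q : β → ℕ → Prop}
    (h : Vt d B m fun a t => Vt d B (f a) fun b t' => Q b (t + t')) : Vt d B (m >>= f) Q :=
  h.bind fun _ _ h => h

/-- Sequencing after a part that is described by `Tri`. -/
theorem Vt.tbind {cn : Bool} {m : M α} {f : α → M β} {P : α → ℕ → Prop} {Q : β → ℕ → Prop}
    (h : Tri ⟨B, cn⟩ m P) (hf : ∀ a t, P a t → Vt d B (f a) fun b t' => Q b (t + t')) :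
    Vt d B (m >>= f) Q := (Vt.of_tri h).bind hf

/-- As `Vt.tbind`; the goal can be simplified with the `Tri_*` lemmas. -/
theorem Vt.tbind' {m : M α} {f : α → M β} {Q : β → ℕ → Prop}
    (h : Tri ⟨B, true⟩ m fun a t => Vt d B (f a) fun b t' => Q b (t + t')) :
    Vt d B (m >>= f) Q := Vt.tbind h fun _ _ h => h

theorem Vt.tick {m : M β} {Q : β → ℕ → Prop} (h : Vt d B m fun b t => Q b (t + 1)) :
    Vt d B (.tick m) Q :=
  Vt.tbind (cn := true) (m := M.tick (M.ret ())) (f := fun _ => m) (P := fun _ t => t = 1) rfl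
    fun _ _ e => h.mono fun b t hb => by rwa [e, Nat.add_comm]

theorem Vt.need {n : ℕ} {m : M β} {Q : β → ℕ → Prop} (hn : n ≤ B) (h : Vt d B m Q) :
    Vt d B (.need n m) Q := fun τ C F h1 h2 h3 h4 => by
  rw [wp_need, if_pos hn]
  exact h τ C F h1 h2 h3 h4

theorem Vt.num_bind {n : ℕ} {f : ℕ → M β} {Q : β → ℕ → Prop} (hn : n ≤ B) (h : Vt d B (f n) Q) :
    Vt d B (num n >>= f) Q := Vt.need hn h

theorem Vt.pure_bind {a : α} {f : α → M β} {Q : β → ℕ → Prop} (h : Vt d B (f a) Q) :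
    Vt d B (Pure.pure a >>= f) Q := h

theorem Vt.ite {p : Prop} [Decidable p] {m m' : M β} {Q : β → ℕ → Prop} (h : p → Vt d B m Q)
    (h' : ¬ p → Vt d B m' Q) : Vt d B (if p then m else m') Q := by
  split_ifs with hp
  · exact h hp
  · exact h' hp

theorem Vt_ite (p : Prop) [Decidable p] (m m' : M β) (Q : β → ℕ → Prop) :
    Vt d B (if p then m else m') Q ↔ (p → Vt d B m Q) ∧ (¬ p → Vt d B m' Q) := by
  split_ifs with h <;> simp [h]

/-- Virtual time may be wasted. -/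
theorem Vt.waste {m : M β} {Q : β → ℕ → Prop} (h : Vt d B m fun b t => ∃ s, t ≤ s ∧ Q b s) :
    Vt d B m Q := fun τ C F h1 h2 h3 h4 => h τ C F h1 h2 h3 fun b s t ⟨s', hs, hb⟩ => by
  have := h4 b s' t hb
  have a : (τ + 1 / 2 ^ d) * s ≤ (τ + 1 / 2 ^ d) * s' :=
    mul_le_mul_of_nonneg_left (Nat.cast_le.2 hs) (by positivity)
  linarith

/-! ### Loops -/

theorem Vt.loopM {F : σ → M (σ ⊕ β)} {Q : β → ℕ → Prop} (I : σ → ℕ → Prop) (μ : σ → ℕ)
    (hstep : ∀ s t, I s t → Vt d B (F s) fun r t' =>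
      Sum.elim (fun s' => I s' (t + t' + 1) ∧ μ s' < μ s) (fun b => Q b (t + t')) r)
    {n : ℕ} {s : σ} (h0 : I s 0) (hn : μ s < n) : Vt d B (loopM F n s) Q := by
  have : ∀ n s t, I s t → μ s < n → Vt d B (P305E.loopM F n s) fun b t' => Q b (t + t') := by
    intro n
    induction n with
    | zero => intro s t _ h; omega
    | succ n ih =>
      intro s t hI hn
      refine (hstep s t hI).bind fun r t' hr => ?_
      cases r with
      | inl s' =>
        refine Vt.tick ((ih s' _ hr.1 (by have := hr.2; omega)).mono fun b t'' h => ?_)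
        rwa [show t + (t' + (t'' + 1)) = t + t' + 1 + t'' by omega]
      | inr b => exact Vt.pure hr
  simpa using this n s 0 h0 hn

theorem Vt.foldM {f : σ → β → M σ} {l : List β} {s : σ} (I : List β → σ → ℕ → Prop)
    (h0 : I [] s 0)
    (hstep : ∀ pre x rest s t, l = pre ++ x :: rest → I pre s t →
      Vt d B (f s x) fun s' t' => I (pre ++ [x]) s' (t + t' + 1)) :
    Vt d B (foldM f s l) (I l) := by
  have : ∀ rest pre s t, l = pre ++ rest → I pre s t →
      Vt d B (P305E.foldM f s rest) fun s' t' => I l s' (t + t') := by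
    intro rest
    induction rest with
    | nil =>
      intro pre s t e h
      rw [List.append_nil] at e
      subst e
      exact Vt.pure h
    | cons x rest ih =>
      intro pre s t e h
      refine (hstep pre x rest s t e h).bind fun s' t' h' => ?_
      refine Vt.tick ((ih (pre ++ [x]) s' _ (by simp [e]) h').mono fun b t'' h => ?_)
      rwa [show t + (t' + (t'' + 1)) = t + t' + 1 + t'' by omega]
  simpa using this l [] s 0 rfl h0

theorem Vt.iterM {f : σ → ℕ → M σ} {n : ℕ} {s : σ} (I : ℕ → σ → ℕ → Prop) (h0 : I 0 s 0)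
    (hstep : ∀ k s t, k < n → I k s t → Vt d B (f s k) fun s' t' => I (k + 1) s' (t + t' + 1)) :
    Vt d B (iterM f s n) (I n) := by
  have := Vt.foldM (d := d) (B := B) (f := f) (l := List.range n) (s := s) (fun l => I l.length)
    h0 fun pre x rest s t e h => by
      obtain ⟨h1, rfl⟩ := range_split e
      simpa using hstep _ s t h1 h
  simpa [P305E.iterM] using this

theorem Vt.mapM' {f : β → M γ} {l : List β} {P : β → γ → Prop} {T : β → ℕ}
    (h : ∀ x ∈ l, Vt d B (f x) fun y t => P x y ∧ t ≤ T x) :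
    Vt d B (mapM' f l) fun l' t => List.Forall₂ P l l' ∧ t ≤ (l.map T).sum + 2 * l.length := by
  refine (Vt.foldM (fun pre acc t => List.Forall₂ P pre acc.reverse ∧
    t ≤ (pre.map T).sum + pre.length) (by simp) ?_).bind ?_
  · intro pre x rest acc t e hI
    refine (h x (by simp [e])).bind fun y t' hy => Vt.pure ⟨?_, ?_⟩
    · rw [List.reverse_cons]
      exact List.rel_append hI.1 (List.Forall₂.cons hy.1 List.Forall₂.nil)
    · have := hI.2
      have := hy.2
      simp only [List.map_append, List.sum_append, List.length_append, List.map_cons,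
        List.map_nil, List.sum_cons, List.sum_nil, List.length_singleton]
      omega
  · intro acc t hI
    refine Vt.of_tri (cn := true) ((Tri_revP _ _).2 ⟨hI.1, ?_⟩)
    have := hI.1.length_eq
    have := hI.2
    simp only [List.length_reverse] at *
    omega

/-! ### Las Vegas routines -/

/-- The usual form of the specification of a Las Vegas routine (as `FlowSpec`, `GMSpec`). -/
def LV (B : ℕ) (m : M β) (G : β → Prop) (T ε : ℝ) : Prop :=
  ∀ (F : β → ℕ → ℝ) (C₀ τ : ℝ), 0 ≤ τ → 0 ≤ C₀ → (∀ b t, F b t ≤ 1) →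
    (∀ b t, G b → F b t ≤ C₀ + τ * t) → wp B m F 1 ≤ C₀ + τ * T + ε

/-- A Las Vegas routine with expected time `T` and failure probability at most `S * 2 ^ (-d)`
takes the virtual time `S ≥ T`. -/
theorem LV.vt {m : M β} {G : β → Prop} {T ε : ℝ} (h : LV B m G T ε) (hG : ∃ b, G b) {S : ℕ}
    (hT : T ≤ S) (hε : ε ≤ S / 2 ^ d) : Vt d B m fun b s => G b ∧ s = S := by
  intro τ C F h1 h2 h3 h4
  obtain ⟨b₀, hb⟩ := hG
  have a := h4 b₀ S 0 ⟨hb, rfl⟩
  have a' := h2 b₀ 0
  have := h F (C - (τ + 1 / 2 ^ d) * S) τ h1 (by simp only [Nat.cast_zero] at a; linarith) h3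
    fun b t hb => by have := h4 b S t ⟨hb, rfl⟩; linarith
  have e : (1 : ℝ) / 2 ^ d * S = S / 2 ^ d := by ring
  have := mul_le_mul_of_nonneg_left hT h1
  nlinarith

/-- Back to the usual form. -/
theorem Vt.lv {m : M β} {G : β → Prop} {T : ℕ} (h : Vt d B m fun b s => G b ∧ s ≤ T) :
    LV B m G T (T / 2 ^ d) := by
  intro F C₀ τ h1 h2 h3 h4
  refine (wp_mono (G := fun b t => max (F b t) 0) (fun _ _ => le_max_left _ _) le_rfl).trans
    (h τ _ _ h1 (fun _ _ => le_max_right _ _) (fun _ _ => max_le (h3 _ _) zero_le_one) ?_)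
  rintro b s t ⟨hb, hs⟩
  have a : max (F b t) 0 ≤ C₀ + τ * t := max_le (h4 b t hb) (by positivity)
  have a' : (τ + 1 / 2 ^ d) * s ≤ (τ + 1 / 2 ^ d) * T :=
    mul_le_mul_of_nonneg_left (Nat.cast_le.2 hs) (by positivity)
  have e : (τ + 1 / 2 ^ d) * T = τ * T + T / 2 ^ d := by ring
  linarith

theorem LV.mono {m : M β} {G : β → Prop} {T ε T' ε' : ℝ} (h : LV B m G T ε) (hT : T ≤ T')
    (hε : ε ≤ ε') : LV B m G T' ε' := fun F C₀ τ h1 h2 h3 h4 => by
  have := h F C₀ τ h1 h2 h3 h4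
  have := mul_le_mul_of_nonneg_left hT h1
  linarith

/-- A routine with a time bound on all paths that is correct with high probability. -/
theorem Vt.of_whp {m : M β} {P : β → ℕ → Prop} {G : β → Prop} {T S : ℕ}
    (h : Tri ⟨B, true⟩ m fun b t => P b t ∧ t ≤ T) (hT : T ≤ S)
    (hp : pr B m (fun b _ => ¬ G b) ≤ S / 2 ^ d) (hG : ∃ b t, P b t ∧ G b) :
    Vt d B m fun b s => (∃ t, P b t) ∧ G b ∧ s = S := by
  refine (LV.vt (G := fun b => (∃ t, P b t) ∧ G b) (T := S) (ε := S / 2 ^ d) ?_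
    (by obtain ⟨b, t, h1, h2⟩ := hG; exact ⟨b, ⟨t, h1⟩, h2⟩) le_rfl le_rfl).mono
    fun _ _ h => ⟨h.1.1, h.1.2, h.2⟩
  intro F C₀ τ h1 h2 h3 h4
  classical
  have k := wp_le_of_Tri (c := ⟨B, true⟩) h (F := F)
    (G := fun b _ => C₀ + τ * S + if ¬ G b then 1 else 0) (fun b t hb => by
      have a : τ * t ≤ τ * S := mul_le_mul_of_nonneg_left (Nat.cast_le.2 (hb.2.trans hT)) h1
      have a' : 0 ≤ τ * S := by positivity
      split_ifs with hg
      · have := h4 b t ⟨⟨t, hb.1⟩, hg⟩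
        linarith
      · have := h3 b t
        linarith) 1 (C₀ + τ * S + 1)
  rw [wp_const_add] at k
  refine k.trans (add_le_add le_rfl (le_trans (le_of_eq ?_) hp))
  unfold pr
  exact wp_congr fun b t => by by_cases hg : G b <;> simp [hg]

theorem one_le_div {d b S : ℕ} (hd : d ≤ b) : (1 : ℝ) / 2 ^ b ≤ ((S + 1 : ℕ) : ℝ) / 2 ^ d := by
  have a : (1 : ℝ) / 2 ^ b ≤ 1 / 2 ^ d :=
    one_div_le_one_div_of_le (by positivity) (pow_le_pow_right₀ (by norm_num) hd)
  refine a.trans (div_le_div_of_nonneg_right ?_ (by positivity))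
  exact_mod_cast Nat.le_add_left 1 S

theorem exists_maxBM (E : List (ℕ × ℕ)) : ∃ l, MaxBM E l := by
  classical
  have hb : ∀ l, IsBM E l → l.length ≤ E.length := fun l hl =>
    (List.subperm_of_subset (List.Nodup.of_map _ hl.2.1) hl.1).length_le
  obtain ⟨l, h1, h2⟩ := Nat.findGreatest_spec (P := fun k => ∃ l, IsBM E l ∧ l.length = k)
    (Nat.zero_le E.length) ⟨[], by simp [IsBM], rfl⟩
  exact ⟨l, h1, fun l' hl' => h2 ▸ Nat.le_findGreatest (hb l' hl') ⟨l', hl', rfl⟩⟩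

/-- The solver for bipartite matching, with virtual time. -/
theorem bip_vt {bip : ℕ → ℕ → ℕ → List (ℕ × ℕ) → M (List (ℕ × ℕ))} {c : ℕ} {g : ℕ → ℕ}
    (h : BipOK bip c g) {b nL nR : ℕ} {E : List (ℕ × ℕ)} (hE : ∀ p ∈ E, p.1 < nL ∧ p.2 < nR)
    (hb : nL + nR + E.length ≤ 2 ^ b) (hB : 2 ^ (c * (b + 1)) ≤ B) (hd : d ≤ b) :
    Vt d B (bip b nL nR E) fun l s => MaxBM E l ∧ s = (nL + nR + E.length + 1) * g b + 1 :=
  LV.vt (T := ((nL + nR + E.length + 1) * g b : ℕ)) (ε := 1 / 2 ^ b) (h.spec B b nL nR E hE hb hB)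
    (exists_maxBM E) (Nat.cast_le.2 (Nat.le_succ _)) (one_le_div hd)

/-- The solver for minimum-cost flows, with virtual time. -/
theorem mcf_vt {mcf : ℕ → Net → M (Arr ℕ)} {c : ℕ} {g : ℕ → ℕ} (h : McfOK mcf c g) {b : ℕ}
    {N : Net} (hN : N.OK (2 ^ b) (2 ^ b)) (hb : N.n + N.m ≤ 2 ^ b) (hB : 2 ^ (c * (b + 1)) ≤ B)
    (hd : d ≤ b) :
    Vt d B (mcf b N) fun f s => N.OptFlow f.get ∧ s = (N.n + N.m + 1) * g b + 1 :=
  LV.vt (G := fun f : Arr ℕ => N.OptFlow f.get) (T := ((N.n + N.m + 1) * g b : ℕ))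
    (ε := 1 / 2 ^ b) (h.spec B b N hN hb hB)
    (by obtain ⟨f, hf⟩ := N.exists_opt; exact ⟨⟨f⟩, hf⟩) (Nat.cast_le.2 (Nat.le_succ _))
    (one_le_div hd)

/-- From virtual time to the specification of the top theorem. -/
theorem Vt.gm {n : ℕ} {G : SimpleGraph (Fin n)} {m : M (List (ℕ × ℕ))} {T : ℕ}
    (h : Vt d B m fun l s => MaxGM G l ∧ s ≤ T) (hT : 5 * T ≤ 2 ^ d) : GMSpec B G m T (1 / 5) := by
  refine h.lv.mono le_rfl ?_
  rw [div_le_div_iff₀ (by positivity) (by norm_num), one_mul, mul_comm]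
  exact_mod_cast hT

end Vale.Agent.P305C
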