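import Vale.Agent.P305E.Arr
import Vale.Agent.P305E.Lists

/-!
# Reachability in a digraph that is given by a program for the out-neighbours
-/

namespace Vale.Agent.P305C

open Vale.Agent.P305E

/-- Visited flags, parents, and the visited vertices (the last one first). -/
abbrev RS : Type := Arr Bool × Arr ℕ × List ℕ

/-- One step of the search; the stack holds pairs (vertex, parent). -/
def rstep (nb : ℕ → M (List ℕ)) (p : List (ℕ × ℕ) × RS) : M ((List (ℕ × ℕ) × RS) ⊕ RS) :=
  caseL p.1 (pure (.inr p.2)) fun q rest =>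
    if p.2.1.get q.1 = true then pure (.inl (rest, p.2)) else
      nb q.1 >>= fun l => foldP (fun acc w => (w, q.1) :: acc) rest l >>= fun st =>
        pure (.inl (st, p.2.1.set q.1 true, p.2.2.1.set q.1 q.2, q.1 :: p.2.2.2))

/-- All vertices that can be reached from `src`; `fuel` is ghost. -/
def reach (nb : ℕ → M (List ℕ)) (fuel : ℕ) (src : List ℕ) : M RS :=
  mapP (fun s => (s, s)) src >>= fun st =>
    loopM (rstep nb) fuel (st, Arr.const false, Arr.const 0, [])

@[fun_prop] theorem impl_reach {α : Type} [Rep α] {nb : α → ℕ → M (List ℕ)} {fuel : α → ℕ}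
    {src : α → List ℕ} (hn : Impl fun p : α × ℕ => nb p.1 p.2) (hs : Pure src) :
    Impl fun a => reach (nb a) (fuel a) (src a) := by
  unfold reach rstep
  fun_prop

/-- A forest in the order of discovery (the last vertex first): every vertex is a source and its
own parent, or an out-neighbour of its parent, which was found earlier. -/
def Forest (N : ℕ → List ℕ) (src : List ℕ) (par : ℕ → ℕ) : List ℕ → Prop
  | [] => True
  | v :: o => Forest N src par o ∧ v ∉ o ∧ ((v ∈ src ∧ par v = v) ∨ (par v ∈ o ∧ v ∈ N (par v)))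

variable {N : ℕ → List ℕ} {src : List ℕ} {par : ℕ → ℕ}

theorem Forest.nodup : ∀ {o : List ℕ}, Forest N src par o → o.Nodup
  | [], _ => List.nodup_nil
  | _ :: _, h => List.nodup_cons.2 ⟨h.2.1, h.1.nodup⟩

theorem Forest.congr {par' : ℕ → ℕ} : ∀ {o : List ℕ}, Forest N src par o →
    (∀ v ∈ o, par' v = par v) → Forest N src par' o
  | [], _, _ => trivial
  | v :: o, h, e => ⟨h.1.congr fun w hw => e w (by simp [hw]), h.2.1, by
      rw [e v (by simp)]; exact h.2.2⟩

theorem Forest.reach : ∀ {o : List ℕ}, Forest N src par o → ∀ v ∈ o,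
    ∃ s ∈ src, Relation.ReflTransGen (fun a b => b ∈ N a) s v
  | [], _, _, hv => by simp at hv
  | w :: o, h, v, hv => by
    rcases List.mem_cons.1 hv with rfl | hv
    · rcases h.2.2 with a | a
      · exact ⟨v, a.1, .refl⟩
      · obtain ⟨s, h1, h2⟩ := h.1.reach _ a.1
        exact ⟨s, h1, h2.tail a.2⟩
    · exact h.1.reach v hv

/-- The parent relation, with a rank that decreases towards the sources. -/
theorem Forest.rank : ∀ {o : List ℕ}, Forest N src par o → ∃ rk : ℕ → ℕ, ∀ v ∈ o, rk v < o.length ∧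
    ((v ∈ src ∧ par v = v) ∨ (par v ∈ o ∧ v ∈ N (par v) ∧ rk (par v) < rk v))
  | [], _ => ⟨id, by simp⟩
  | w :: o, h => by
    obtain ⟨rk, hr⟩ := h.1.rank
    have ne : ∀ v ∈ o, v ≠ w := fun v hv e => h.2.1 (e ▸ hv)
    refine ⟨Function.update rk w o.length, fun v hv => ?_⟩
    rcases List.mem_cons.1 hv with rfl | hv
    · refine ⟨by simp, h.2.2.imp id fun a => ⟨by simp [a.1], a.2, ?_⟩⟩
      rw [Function.update_self, Function.update_of_ne (ne _ a.1)]
      exact (hr _ a.1).1
    · rw [Function.update_of_ne (ne _ hv)]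
      refine ⟨(hr v hv).1.trans (by simp), (hr v hv).2.imp id fun a => ⟨by simp [a.1], a.2.1, ?_⟩⟩
      rw [Function.update_of_ne (ne _ a.1)]
      exact a.2.2

/-- The path from `v` up to its source: a list without repetitions that starts with `v`. -/
theorem Forest.path : ∀ {o : List ℕ}, Forest N src par o → ∀ v ∈ o, ∃ l : List ℕ,
    (v :: l).Nodup ∧ (∀ w ∈ l, w ∈ o) ∧ List.IsChain (fun a b => par a = b ∧ a ∈ N b) (v :: l) ∧
    (v :: l).getLast (by simp) ∈ src ∧ par ((v :: l).getLast (by simp)) = (v :: l).getLast (by simp)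
  | [], _, _, hv => by simp at hv
  | w :: o, h, v, hv => by
    rcases List.mem_cons.1 hv with rfl | hv
    · rcases h.2.2 with a | a
      · exact ⟨[], by simp, by simp, by simp, a.1, a.2⟩
      · obtain ⟨l, h1, h2, h3, h4⟩ := h.1.path _ a.1
        refine ⟨par v :: l, List.nodup_cons.2 ⟨fun k => h.2.1 ?_, h1⟩, fun x hx => ?_,
          List.IsChain.cons_cons ⟨rfl, a.2⟩ h3, by simpa using h4⟩
        · rcases List.mem_cons.1 k with k | k
          · exact k ▸ a.1
          · exact h2 _ k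
        · rcases List.mem_cons.1 hx with rfl | hx
          · simp [a.1]
          · simp [h2 _ hx]
    · obtain ⟨l, h1, h2, h3⟩ := h.1.path v hv
      exact ⟨l, h1, fun x hx => by simp [h2 x hx], h3⟩

theorem mem_push (v : ℕ) (l : List ℕ) (rest : List (ℕ × ℕ)) :
    (∀ q, q ∈ l.foldl (fun acc w => (w, v) :: acc) rest ↔ q ∈ rest ∨ (q.1 ∈ l ∧ q.2 = v)) ∧
      (l.foldl (fun acc w => (w, v) :: acc) rest).length = rest.length + l.length := by
  induction l generalizing rest with
  | nil => simp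
  | cons w l ih =>
    refine ⟨fun q => ?_, by rw [List.foldl_cons, (ih _).2]; simp; omega⟩
    rw [List.foldl_cons, (ih _).1, List.mem_cons, List.mem_cons, Prod.ext_iff]
    tauto

/-- What the search returns. -/
structure Reach (N : ℕ → List ℕ) (src : List ℕ) (r : RS) : Prop where
  vis : ∀ v, r.1.get v = true ↔ v ∈ r.2.2
  forest : Forest N src r.2.1.get r.2.2
  src_mem : ∀ s ∈ src, s ∈ r.2.2
  closed : ∀ v ∈ r.2.2, ∀ w ∈ N v, w ∈ r.2.2

theorem Reach.mem_iff {r : RS} (h : Reach N src r) (v : ℕ) :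
    v ∈ r.2.2 ↔ ∃ s ∈ src, Relation.ReflTransGen (fun a b => b ∈ N a) s v := by
  refine ⟨h.forest.reach v, ?_⟩
  rintro ⟨s, hs, k⟩
  induction k with
  | refl => exact h.src_mem s hs
  | tail _ k ih => exact h.closed _ ih _ k

/-- The search inside a finite closed set `U`; the time depends on the visited vertices only. -/
theorem reach_tri {c : Cx} {nb : ℕ → M (List ℕ)} {T : ℕ → ℕ} (U : Finset ℕ) {fuel : ℕ}
    (hs : ∀ s ∈ src, s ∈ U) (hU : ∀ v ∈ U, ∀ w ∈ N v, w ∈ U)
    (hn : ∀ v ∈ U, Tri c (nb v) fun l t => l = N v ∧ t ≤ T v)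
    (hf : src.length + ∑ v ∈ U, (N v).length < fuel) :
    Tri c (reach nb fuel src) fun r t => Reach N src r ∧ (∀ v ∈ r.2.2, v ∈ U) ∧
      t ≤ 2 * src.length + (r.2.2.map fun v => T v + 2 * (N v).length).sum := by
  unfold reach
  rw [Tri_bind, Tri_mapP]
  refine Tri.loopM (fun p t => (∀ v, p.2.1.get v = true ↔ v ∈ p.2.2.2) ∧
    Forest N src p.2.2.1.get p.2.2.2 ∧ (∀ v ∈ p.2.2.2, v ∈ U) ∧
    (∀ q ∈ p.1, q.1 ∈ U ∧ ((q.1 ∈ src ∧ q.2 = q.1) ∨ (q.2 ∈ p.2.2.2 ∧ q.1 ∈ N q.2))) ∧
    (∀ w, (w ∈ src ∨ ∃ v ∈ p.2.2.2, w ∈ N v) → w ∈ p.2.2.2 ∨ ∃ q ∈ p.1, q.1 = w) ∧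
    t + p.1.length ≤ src.length + (p.2.2.2.map fun v => T v + 2 * (N v).length).sum)
    (fun p => p.1.length + ∑ v ∈ U, if p.2.1.get v = true then 0 else (N v).length) ?_
    ⟨by simp, by simp [Forest], by simp, fun q hq => ?_, fun w hw => ?_, by simp⟩ (by simpa using hf)
  · rintro ⟨st, vis, par, o⟩ t ⟨h1, h2, h3, h4, h5, h6⟩
    dsimp only at h1 h2 h3 h4 h5 h6
    cases st with
    | nil =>
      simp only [rstep, caseL_nil, Tri_pure, Sum.elim_inr]
      exact ⟨⟨h1, h2, fun s hs => by simpa using h5 s (Or.inl hs),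
        fun v hv w hw => by simpa using h5 w (Or.inr ⟨v, hv, hw⟩)⟩, h3, by omega⟩
    | cons q rest =>
      obtain ⟨v, p⟩ := q
      simp only [rstep, caseL_cons, Tri_ite, Tri_pure, Sum.elim_inl, Tri_bind, Tri_foldP,
        List.length_cons] at h6 ⊢
      refine ⟨fun hv => ⟨⟨h1, h2, h3, fun q hq => h4 q (by simp [hq]), fun w hw => ?_, by omega⟩,
        by omega⟩, fun hv => ?_⟩
      · rcases h5 w hw with a | ⟨q, a, rfl⟩
        · exact Or.inl a
        · rcases List.mem_cons.1 a with rfl | a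
          · exact Or.inl ((h1 _).1 hv)
          · exact Or.inr ⟨q, a, rfl⟩
      have hq := h4 (v, p) (by simp)
      have hvo : v ∉ o := fun k => hv ((h1 v).2 k)
      refine (hn v hq.1).mono ?_
      rintro _ t' ⟨rfl, ht⟩
      obtain ⟨m1, m2⟩ := mem_push v (N v) rest
      refine ⟨⟨fun w => ?_, ⟨h2.congr fun w hw =>
        Arr.get_set_ne _ (fun e => hvo (by rw [← e]; exact hw)) _, hvo, ?_⟩, fun w hw => ?_, fun q hq' => ?_, fun w hw => ?_, ?_⟩, ?_⟩
      · rw [Arr.get_set, List.mem_cons, ← h1]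
        split_ifs with e <;> simp [e]
      · simpa using hq.2
      · rcases List.mem_cons.1 hw with rfl | hw
        · exact hq.1
        · exact h3 w hw
      · rcases (m1 q).1 hq' with a | a
        · have := h4 q (by simp [a])
          exact ⟨this.1, this.2.imp id fun k => ⟨by simp [k.1], k.2⟩⟩
        · exact ⟨hU v hq.1 _ a.1, Or.inr ⟨by simp [a.2], a.2 ▸ a.1⟩⟩
      · by_cases e : w ∈ N v
        · exact Or.inr ⟨(w, v), (m1 _).2 (Or.inr ⟨e, rfl⟩), rfl⟩
        · rcases h5 w (hw.imp id fun ⟨x, hx, k⟩ => ⟨x, (List.mem_cons.1 hx).resolve_left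
            fun e' => e (e' ▸ k), k⟩) with a | ⟨q, a, rfl⟩
          · exact Or.inl (by simp [a])
          · rcases List.mem_cons.1 a with rfl | a
            · exact Or.inl (by simp)
            · exact Or.inr ⟨q, (m1 q).2 (Or.inl a), rfl⟩
      · simp only [m2, List.map_cons, List.sum_cons]
        omega
      · have e : ∑ w ∈ U, (if (vis.set v true).get w = true then 0 else (N w).length) +
            (N v).length = ∑ w ∈ U, if vis.get w = true then 0 else (N w).length := by
          rw [← Finset.add_sum_erase _ _ hq.1, ← Finset.add_sum_erase _ _ hq.1, if_neg hv,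
            Arr.get_set_self, if_pos rfl, zero_add, add_comm]
          exact congrArg _ (Finset.sum_congr rfl fun j hj => by
            rw [Arr.get_set_ne _ (Finset.ne_of_mem_erase hj)])
        simp only [m2]
        omega
  · obtain ⟨s, k, rfl⟩ := List.mem_map.1 hq
    exact ⟨hs s k, Or.inl ⟨k, rfl⟩⟩
  · exact Or.inr ⟨(w, w), List.mem_map_of_mem (by simpa using hw), rfl⟩

/-- One step up the forest. -/
def upStep (par : Arr ℕ) (p : ℕ × List ℕ) : M ((ℕ × List ℕ) ⊕ List ℕ) :=
  if par.get p.1 = p.1 then pure (.inr (p.1 :: p.2)) else pure (.inl (par.get p.1, p.1 :: p.2))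

/-- The path from the source down to `v`; `fuel` is ghost. -/
def pathP (par : Arr ℕ) (fuel v : ℕ) : M (List ℕ) := loopM (upStep par) fuel (v, [])

@[fun_prop] theorem impl_pathP {α : Type} [Rep α] {par : α → Arr ℕ} {fuel v : α → ℕ}
    (hp : Pure par) (hv : Pure v) : Impl fun a => pathP (par a) (fuel a) (v a) := by
  unfold pathP upStep
  fun_prop

/-- The path starts at a source, ends at `v`, has no repetitions and follows the arcs. -/
theorem pathP_tri {c : Cx} {par : Arr ℕ} {o : List ℕ} (h : Forest N src par.get o) {v fuel : ℕ}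
    (hv : v ∈ o) (hf : o.length ≤ fuel) :
    Tri c (pathP par fuel v) fun l t => l.Nodup ∧ (∀ w ∈ l, w ∈ o) ∧
      List.IsChain (fun a b => b ∈ N a) l ∧ (∃ s ∈ src, l.head? = some s) ∧
      l.getLast? = some v ∧ t < l.length := by
  obtain ⟨rk, hr⟩ := h.rank
  refine Tri.loopM (fun p t => p.1 ∈ o ∧ (∀ w ∈ p.2, w ∈ o ∧ rk p.1 < rk w) ∧ p.2.Nodup ∧
    List.IsChain (fun a b => b ∈ N a) (p.1 :: p.2) ∧ (p.1 :: p.2).getLast? = some v ∧
    t = p.2.length) (fun p => rk p.1) ?_ ⟨hv, by simp, by simp, by simp, rfl, rfl⟩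
    ((hr v hv).1.trans_le hf)
  rintro ⟨u, l⟩ t ⟨h1, h2, h3, h4, h5, rfl⟩
  dsimp only at h1 h2 h3 h4 h5
  have nd : (u :: l).Nodup := List.nodup_cons.2 ⟨fun k => lt_irrefl _ (h2 u k).2, h3⟩
  simp only [upStep, Tri_ite, Tri_pure, Sum.elim_inl, Sum.elim_inr]
  refine ⟨fun e => ⟨nd, fun w hw => ?_, h4, ⟨u, ?_, rfl⟩, h5, by simp⟩, fun e => ?_⟩
  · rcases List.mem_cons.1 hw with rfl | hw
    · exact h1
    · exact (h2 w hw).1
  · rcases (hr u h1).2 with a | a
    · exact a.1
    · rw [e] at a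
      exact absurd a.2.2 (lt_irrefl _)
  · have a := ((hr u h1).2.resolve_left fun a => e a.2)
    refine ⟨⟨a.1, fun w hw => ?_, nd, List.IsChain.cons_cons a.2.1 h4, by simpa using h5, by simp⟩,
      a.2.2⟩
    rcases List.mem_cons.1 hw with rfl | hw
    · exact ⟨h1, a.2.2⟩
    · exact ⟨(h2 w hw).1, a.2.2.trans (h2 w hw).2⟩

end Vale.Agent.P305C
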