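import Vale.Agent.P305C.Circ

/-!
# Minimum-cost circulations on lists of arcs with arbitrary vertex names
-/

namespace Vale.Agent.P305C

open Vale.Agent.P305E Vale.Agent.P305F Finset

variable {κ : Type}

/-- A circulation on a list of arcs (every entry is an object `k` with the arc `a k` and its flow)
and potentials that certify its optimality. -/
structure Cert (a : κ → Arc) (r : List (κ × ℕ)) (π : ℕ → ℤ) : Prop where
  cap : ∀ p ∈ r, p.2 ≤ (a p.1).2.2.1
  cons : ∀ v, (r.map fun p => if (a p.1).2.1 = v then p.2 else 0).sum =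
    (r.map fun p => if (a p.1).1 = v then p.2 else 0).sum
  pos : ∀ p ∈ r, 0 < (a p.1).2.2.2 + π (a p.1).1 - π (a p.1).2.1 → p.2 = 0
  neg : ∀ p ∈ r, (a p.1).2.2.2 + π (a p.1).1 - π (a p.1).2.1 < 0 → p.2 = (a p.1).2.2.1

theorem sum_zipIdx (l : List κ) (h : κ → ℕ → ℕ) :
    (l.zipIdx.map fun q => h q.1 q.2).sum =
      ∑ e ∈ range l.length, (l[e]?).elim 0 fun k => h k e := by
  induction l using List.reverseRecOn with
  | nil => simp
  | append_singleton l x ih =>
    rw [List.zipIdx_append, List.map_append, List.sum_append, ih, List.length_append,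
      List.length_singleton, sum_range_succ]
    congr 1
    · exact sum_congr rfl fun e he => by rw [List.getElem?_append_left (mem_range.1 he)]
    · simp

theorem foldl_idx (vs : List ℕ) (v : ℕ) (hv : v ∈ vs) :
    vs[(vs.zipIdx.foldl (fun (s : Arr ℕ) p => s.set p.1 p.2) (Arr.const 0)).get v]? = some v := by
  induction vs using List.reverseRecOn with
  | nil => simp at hv
  | append_singleton l x ih =>
    rw [List.zipIdx_append, List.foldl_append]
    simp only [List.zipIdx_singleton, List.foldl_cons, List.foldl_nil, Arr.get_set, zero_add]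
    split_ifs with h
    · simp [h]
    · have h1 := ih (by simpa [h] using hv)
      rw [List.getElem?_append_left (List.getElem?_eq_some_iff.1 h1).1, h1]

theorem foldl_tab {β : Type} (φ : ℕ → β) (d : β) (vs : List ℕ) (v : ℕ) :
    (vs.foldl (fun (s : Arr β) v => s.set v (φ v)) (Arr.const d)).get v =
      if v ∈ vs then φ v else d := by
  induction vs using List.reverseRecOn with
  | nil => simp
  | append_singleton l x ih =>
    simp only [List.foldl_append, List.foldl_cons, List.foldl_nil, Arr.get_set, ih,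
      List.mem_append, List.mem_singleton]
    by_cases h : v = x <;> simp [h]

/-- From compact names back to the old names. -/
theorem CertI.cert {a : κ → Arc} {l : List κ} {ix : ℕ → ℕ} {vs : List ℕ}
    (hv : ∀ k ∈ l, (a k).1 ∈ vs ∧ (a k).2.1 ∈ vs)
    (hi : ∀ v ∈ vs, ∀ w ∈ vs, ix v = ix w → v = w) {f : ℕ → ℕ} {y π : ℕ → ℤ}
    (hπ : ∀ v ∈ vs, π v = y (ix v))
    (h : CertI l.length (fun e => (l.map fun k => (ix (a k).1, ix (a k).2.1, (a k).2.2)).getD e
      (0, 0, 0, 0)) f y) : Cert a (l.zipIdx.map fun p => (p.1, f p.2)) π := by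
  have key : ∀ p ∈ l.zipIdx.map fun p => (p.1, f p.2), ∃ e < l.length, p.1 ∈ l ∧ p.2 = f e ∧
      (l.map fun k => (ix (a k).1, ix (a k).2.1, (a k).2.2)).getD e (0, 0, 0, 0) =
        (ix (a p.1).1, ix (a p.1).2.1, (a p.1).2.2) := by
    intro p hp
    obtain ⟨q, hq, rfl⟩ := List.mem_map.1 hp
    have h1 := List.mem_zipIdx_iff_getElem?.1 hq
    exact ⟨q.2, (List.getElem?_eq_some_iff.1 h1).1, List.mem_of_getElem? h1, rfl,
      by simp [List.getD_eq_getElem?_getD, h1]⟩
  refine ⟨fun p hp => ?_, fun v => ?_, fun p hp h0 => ?_, fun p hp h0 => ?_⟩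
  · obtain ⟨e, he, -, e1, e2⟩ := key p hp
    have := h.cap e he
    rwa [e2, ← e1] at this
  · by_cases hm : v ∈ vs
    · have := h.cons (ix v)
      simp only [List.map_map, Function.comp_def]
      rw [sum_zipIdx l fun k e => if (a k).2.1 = v then f e else 0,
        sum_zipIdx l fun k e => if (a k).1 = v then f e else 0]
      refine Eq.trans (sum_congr rfl fun e he => ?_) (this.trans (sum_congr rfl fun e he => ?_))
      · have he := mem_range.1 he
        have b := hv _ (List.getElem_mem he)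
        simp only [List.getD_eq_getElem?_getD, List.getElem?_map, List.getElem?_eq_getElem he,
          Option.elim_some, Option.map_some, Option.getD_some]
        exact if_congr ⟨fun h => by rw [h], hi _ b.2 _ hm⟩ rfl rfl
      · have he := mem_range.1 he
        have b := hv _ (List.getElem_mem he)
        simp only [List.getD_eq_getElem?_getD, List.getElem?_map, List.getElem?_eq_getElem he,
          Option.elim_some, Option.map_some, Option.getD_some]
        exact if_congr ⟨hi _ b.1 _ hm, fun h => by rw [h]⟩ rfl rfl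
    · rw [List.sum_eq_zero, List.sum_eq_zero]
      all_goals
        intro x hx
        obtain ⟨p, hp, rfl⟩ := List.mem_map.1 hx
        obtain ⟨e, -, hk, -⟩ := key p hp
      · exact if_neg fun e => hm (by rw [← e]; exact (hv _ hk).1)
      · exact if_neg fun e => hm (by rw [← e]; exact (hv _ hk).2)
  · obtain ⟨e, he, hk, e1, e2⟩ := key p hp
    have := h.pos e he
    rw [e2, ← e1] at this
    exact this (by rwa [hπ _ (hv _ hk).1, hπ _ (hv _ hk).2] at h0)
  · obtain ⟨e, he, hk, e1, e2⟩ := key p hp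
    have := h.neg e he
    rw [e2, ← e1] at this
    exact this (by rwa [hπ _ (hv _ hk).1, hπ _ (hv _ hk).2] at h0)

/-- An optimal circulation on the arcs `a k`, `k ∈ l`, with optimal potentials. -/
def cmcf (mcf : ℕ → Net → M (Arr ℕ)) (b : ℕ) (a : κ → Arc) (l : List κ) :
    M (List (κ × ℕ) × Arr ℤ) :=
  mapP (fun k => (a k).1) l >>= fun ts => mapP (fun k => (a k).2.1) l >>= fun hs =>
  appendP ts hs >>= fun vs => zipIdxP vs >>= fun zs =>
  foldP (fun (s : Arr ℕ) p => s.set p.1 p.2) (Arr.const 0) zs >>= fun ix =>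
  mapP (fun k => (ix.get (a k).1, ix.get (a k).2.1, (a k).2.2)) l >>= fun l' =>
  ofListP (0, 0, 0, 0) l' >>= fun A => lenP l >>= fun m => num (2 * m) >>= fun n =>
  num (b + 2) >>= fun b' => circP mcf b' n m A >>= fun r =>
  foldP (fun (s : Arr ℤ) v => s.set v (r.2.get (ix.get v + 1))) (Arr.const 0) vs >>= fun π =>
  zipIdxP l >>= fun z => mapP (fun p => (p.1, r.1.get p.2)) z >>= fun f => pure (f, π)

theorem impl_cmcf {α : Type} [Rep α] [Rep κ] {mcf : ℕ → Net → M (Arr ℕ)}
    (h : Impl fun p : ℕ × Net => mcf p.1 p.2) {b : α → ℕ} {a : α → κ → Arc} {l : α → List κ}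
    (hb : Pure b) (ha : Pure fun p : α × κ => a p.1 p.2) (hl : Pure l) :
    Impl fun x => cmcf mcf (b x) (a x) (l x) := by
  have := impl_circP h
  unfold cmcf
  fun_prop

/-- The overhead of `cmcf`. -/
def cmG (g : ℕ → ℕ) (b : ℕ) : ℕ := 30 * g (3 * b + 10) + 200

theorem cmG_mono {g : ℕ → ℕ} (h : Monotone g) : Monotone (cmG g) := fun x y hxy => by
  have := h (show 3 * x + 10 ≤ 3 * y + 10 by omega)
  unfold cmG
  omega

theorem cmG_sub {mcf : ℕ → Net → M (Arr ℕ)} {c : ℕ} {g : ℕ → ℕ} (h : McfOK mcf c g) (a : ℕ) :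
    Sub fun N => cmG g (a * Nat.size N + a) := by
  refine (((Sub.const 30).mul (h.sub (3 * a + 10))).add (Sub.const 200)).mono fun N _ => ?_
  have := h.mono (show 3 * (a * Nat.size N + a) + 10 ≤ (3 * a + 10) * Nat.size N + (3 * a + 10) by
    nlinarith [Nat.zero_le (Nat.size N)])
  unfold cmG
  omega

/-- **Optimal circulations with potentials.** -/
theorem cmcf_vt {mcf : ℕ → Net → M (Arr ℕ)} {c : ℕ} {g : ℕ → ℕ} (h : McfOK mcf c g)
    {d B b : ℕ} {a : κ → Arc} {l : List κ} (hl : l.length ≤ 2 ^ b)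
    (ha : ∀ k ∈ l, (a k).2.2.1 ≤ 2 ^ b ∧ (a k).2.2.2.natAbs ≤ 2 ^ b)
    (hB : 2 ^ ((11 * c + 20) * (b + 1)) ≤ B) (hd : d ≤ 3 * b + 10) :
    Vt d B (cmcf mcf b a l) fun r s => r.1.map Prod.fst = l ∧ Cert a r.1 r.2.get ∧
      (∀ v, (r.2.get v).natAbs ≤ 2 ^ (4 * b + 12)) ∧ s ≤ (l.length + 1) * cmG g b := by
  have e1 : 2 ^ (b + 2) = 4 * 2 ^ b := by ring
  have e2 : 2 ^ (b + 2) ≤ B := le_trans (Nat.pow_le_pow_right (by omega) (by nlinarith)) hB
  have e3 : b + 2 ≤ B := Nat.lt_two_pow_self.le.trans e2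
  unfold cmcf
  refine Vt.tbind' ((Tri_mapP _ _ _).2 (Vt.tbind' ((Tri_mapP _ _ _).2 (Vt.tbind'
    ((Tri_appendP _ _ _).2 ?_)))))
  obtain ⟨vs, hvs⟩ : ∃ vs, vs = (l.map fun k => (a k).1) ++ l.map fun k => (a k).2.1 := ⟨_, rfl⟩
  have v1 : vs.length = 2 * l.length := by simp [hvs, two_mul]
  have v2 : ∀ k ∈ l, (a k).1 ∈ vs ∧ (a k).2.1 ∈ vs := fun k hk => by
    rw [hvs]
    exact ⟨List.mem_append_left _ (List.mem_map_of_mem hk),
      List.mem_append_right _ (List.mem_map_of_mem hk)⟩
  rw [← hvs]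
  refine Vt.tbind' ((Tri_zipIdxP _ _).2 ⟨by dsimp only; omega, Vt.tbind' ((Tri_foldP _ _ _ _).2 ?_)⟩)
  have i1 := foldl_idx vs
  generalize vs.zipIdx.foldl (fun (s : Arr ℕ) p => s.set p.1 p.2) (Arr.const 0) = ix at i1 ⊢
  have i2 : ∀ v ∈ vs, ix.get v < 2 * l.length := fun v hv =>
    v1 ▸ (List.getElem?_eq_some_iff.1 (i1 v hv)).1
  have i3 : ∀ v ∈ vs, ∀ w ∈ vs, ix.get v = ix.get w → v = w := fun v hv w hw e => by
    have := i1 v hv
    rw [e, i1 w hw] at this
    exact (Option.some.inj this).symm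
  refine Vt.tbind' ((Tri_mapP _ _ _).2 (Vt.tbind' ?_))
  rw [Tri_ofListP]
  refine ⟨by simp only [List.length_map]; omega, Vt.tbind' ((Tri_lenP _ _).2 ⟨by dsimp only; omega,
    Vt.num_bind (by omega) (Vt.num_bind e3 ?_)⟩)⟩
  refine (circ_vt h (b := b + 2) (fun e he => ?_) (by omega)
    (le_trans (Nat.pow_le_pow_right (by omega) (by nlinarith)) hB)
    (le_trans (Nat.pow_le_pow_right (by omega) (by nlinarith)) hB) (by omega)).bind ?_
  · have hk := List.getElem_mem he
    have := ha _ hk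
    have := i2 _ (v2 _ hk).1
    have := i2 _ (v2 _ hk).2
    simp only [List.getD_eq_getElem?_getD, List.getElem?_map, List.getElem?_eq_getElem he,
      Option.map_some, Option.getD_some]
    omega
  rintro r t ⟨r1, r2, r3⟩
  refine Vt.of_tri (cn := true) ?_
  simp only [Tri_bind, Tri_foldP, Tri_zipIdxP, Tri_mapP, Tri_pure, List.length_map,
    List.length_zipIdx]
  refine ⟨by omega, ?_, r1.cert v2 i3 (y := fun v => r.2.get (v + 1)) fun v hv => ?_, fun v => ?_,
    ?_⟩
  · simp [List.map_map, Function.comp_def]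
  · rw [foldl_tab (fun v => r.2.get (ix.get v + 1)), if_pos hv]
  · rw [foldl_tab (fun v => r.2.get (ix.get v + 1))]
    split_ifs
    · exact r2 _
    · simp
  · have : 3 * (b + 2) + 4 = 3 * b + 10 := by ring
    rw [this] at r3
    unfold cmG
    rw [v1]
    nlinarith [Nat.zero_le (g (3 * b + 10)), Nat.zero_le (l.length * g (3 * b + 10))]

end Vale.Agent.P305C
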