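import Vale.Agent.P305C.Cmcf

/-!
# Consequences of the certificate; maximum flows and minimum cuts
-/

namespace Vale.Agent.P305C

open Vale.Agent.P305E Vale.Agent.P305F Finset

variable {κ ι : Type}

/-- Conservation at all vertices kills all potential differences. -/
theorem pot_zero {R : Type} [CommRing R] (l : List ι) (tl hd : ι → ℕ) (x : ι → R)
    (h : ∀ v, (l.map fun p => if hd p = v then x p else 0).sum =
      (l.map fun p => if tl p = v then x p else 0).sum) (ψ : ℕ → R) :
    (l.map fun p => x p * (ψ (hd p) - ψ (tl p))).sum = 0 := by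
  obtain ⟨s, hs⟩ : ∃ s : Finset ℕ, ∀ p ∈ l, tl p ∈ s ∧ hd p ∈ s :=
    ⟨(l.map tl).toFinset ∪ (l.map hd).toFinset, fun p hp => by
      simp only [mem_union, List.mem_toFinset]
      exact ⟨Or.inl (List.mem_map_of_mem hp), Or.inr (List.mem_map_of_mem hp)⟩⟩
  have key : ∀ (l : List ι) (e : ι → ℕ), (∀ p ∈ l, e p ∈ s) → (l.map fun p => x p * ψ (e p)).sum =
      ∑ v ∈ s, ψ v * (l.map fun p => if e p = v then x p else 0).sum := by
    intro l e he
    induction l with
    | nil => simp
    | cons p l ih =>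
      simp only [List.map_cons, List.sum_cons, mul_add, sum_add_distrib, mul_ite, mul_zero,
        sum_ite_eq, if_pos (he p (by simp)), ih fun q hq => he q (by simp [hq]), mul_comm (x p)]
  have e : (l.map fun p => x p * (ψ (hd p) - ψ (tl p))).sum =
      (l.map fun p => x p * ψ (hd p)).sum - (l.map fun p => x p * ψ (tl p)).sum := by
    clear h hs key
    induction l with
    | nil => simp
    | cons p l ih => simp only [List.map_cons, List.sum_cons, ih]; ring
  rw [e, key l hd fun p hp => (hs p hp).2, key l tl fun p hp => (hs p hp).1]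
  simp only [h, sub_self]

theorem cast_lsum {R : Type} [CommRing R] (l : List ι) (x : ι → ℕ) :
    (((l.map x).sum : ℕ) : R) = (l.map fun p => (x p : R)).sum := by
  induction l with
  | nil => simp
  | cons p l ih => simp [ih]

theorem lsum_add {R : Type} [AddCommMonoid R] (l : List ι) (x y : ι → R) :
    (l.map fun p => x p + y p).sum = (l.map x).sum + (l.map y).sum := List.sum_map_add

theorem lsum_le {R : Type} [AddCommMonoid R] [PartialOrder R] [IsOrderedAddMonoid R] {l : List ι}
    {x y : ι → R} (h : ∀ p ∈ l, x p ≤ y p) : (l.map x).sum ≤ (l.map y).sum := List.sum_le_sum h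

theorem lsum_congr {R : Type} [AddCommMonoid R] {l : List ι} {x y : ι → R}
    (h : ∀ p ∈ l, x p = y p) : (l.map x).sum = (l.map y).sum := by rw [List.map_congr_left h]

variable {a : κ → Arc} {r : List (κ × ℕ)} {π : ℕ → ℤ}

theorem Cert.pot {R : Type} [CommRing R] (h : Cert a r π) (ψ : ℕ → R) :
    (r.map fun p => (p.2 : R) * (ψ (a p.1).2.1 - ψ (a p.1).1)).sum = 0 :=
  pot_zero r (fun p => (a p.1).1) (fun p => (a p.1).2.1) (fun p => (p.2 : R)) (fun v => by
    have := congrArg (Nat.cast : ℕ → R) (h.cons v)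
    simpa only [cast_lsum, Nat.cast_ite, Nat.cast_zero] using this) ψ

/-- The flow that leaves a set is the flow that enters it. -/
theorem cut_eq (l : List ι) (tl hd x : ι → ℕ)
    (h : ∀ v, (l.map fun p => if hd p = v then x p else 0).sum =
      (l.map fun p => if tl p = v then x p else 0).sum) (S : ℕ → Prop) [DecidablePred S] :
    (l.map fun p => if S (tl p) ∧ ¬ S (hd p) then x p else 0).sum =
      (l.map fun p => if ¬ S (tl p) ∧ S (hd p) then x p else 0).sum := by
  have := pot_zero l tl hd (fun p => (x p : ℤ)) (fun v => by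
    have := congrArg (Nat.cast : ℕ → ℤ) (h v)
    simpa only [cast_lsum, Nat.cast_ite, Nat.cast_zero] using this) fun v => if S v then 1 else 0
  have e : (((l.map fun p => if S (tl p) ∧ ¬ S (hd p) then x p else 0).sum : ℕ) : ℤ) +
      (l.map fun p => (x p : ℤ) * ((if S (hd p) then 1 else 0) - if S (tl p) then 1 else 0)).sum =
      ((l.map fun p => if ¬ S (tl p) ∧ S (hd p) then x p else 0).sum : ℕ) := by
    rw [cast_lsum, cast_lsum, ← lsum_add]
    refine lsum_congr fun p _ => ?_
    by_cases h1 : S (tl p) <;> by_cases h2 : S (hd p) <;> simp [h1, h2]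
  rw [this, add_zero] at e
  exact_mod_cast e

theorem Cert.cut (h : Cert a r π) (S : ℕ → Prop) [DecidablePred S] :
    (r.map fun p => if S (a p.1).1 ∧ ¬ S (a p.1).2.1 then p.2 else 0).sum =
      (r.map fun p => if ¬ S (a p.1).1 ∧ S (a p.1).2.1 then p.2 else 0).sum :=
  cut_eq r (fun p => (a p.1).1) (fun p => (a p.1).2.1) Prod.snd h.cons S

/-- Optimality against all real circulations within the capacities. -/
theorem Cert.opt (h : Cert a r π) (x : κ × ℕ → ℝ) (h0 : ∀ p ∈ r, 0 ≤ x p ∧ x p ≤ (a p.1).2.2.1)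
    (hx : ∀ v, (r.map fun p => if (a p.1).2.1 = v then x p else 0).sum =
      (r.map fun p => if (a p.1).1 = v then x p else 0).sum) :
    (r.map fun p => ((a p.1).2.2.2 : ℝ) * p.2).sum ≤ (r.map fun p => ((a p.1).2.2.2 : ℝ) * x p).sum := by
  have e1 := h.pot fun v => -(π v : ℝ)
  have e2 := pot_zero r (fun p => (a p.1).1) (fun p => (a p.1).2.1) x hx fun v => -(π v : ℝ)
  rw [← add_zero (r.map _).sum, ← add_zero (r.map fun p => ((a p.1).2.2.2 : ℝ) * x p).sum]
  nth_rewrite 1 [← e1]
  rw [← e2, ← lsum_add, ← lsum_add]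
  refine lsum_le fun p hp => ?_
  obtain ⟨x0, x1⟩ := h0 p hp
  have key : 0 ≤ (((a p.1).2.2.2 + π (a p.1).1 - π (a p.1).2.1 : ℤ) : ℝ) * (x p - p.2) := by
    rcases lt_trichotomy ((a p.1).2.2.2 + π (a p.1).1 - π (a p.1).2.1) 0 with k | k | k
    · rw [h.neg p hp k]
      exact mul_nonneg_of_nonpos_of_nonpos (by exact_mod_cast k.le) (by linarith)
    · simp [k]
    · rw [h.pos p hp k]
      exact mul_nonneg (by exact_mod_cast k.le) (by simpa using x0)
  push_cast at key
  linarith

/-- For lists without repetitions the flow is a function. -/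
theorem exists_fun {l : List κ} (hl : l.Nodup) (h : r.map Prod.fst = l) :
    ∃ f : κ → ℕ, r = l.map fun k => (k, f k) := by
  classical
  subst h
  induction r with
  | nil => exact ⟨fun _ => 0, rfl⟩
  | cons p r ih =>
    rw [List.map_cons, List.nodup_cons] at hl
    obtain ⟨f, hf⟩ := ih hl.2
    refine ⟨Function.update f p.1 p.2, ?_⟩
    rw [List.map_cons, List.map_cons, Function.update_self]
    congr 1
    refine hf.trans (List.map_congr_left fun k hk => ?_)
    rw [Function.update_of_ne fun e => hl.1 (by rw [← e]; exact hk)]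

/-! ### Maximum flows and minimum cuts -/

/-- The capacity of the cut `S` (which does not contain `z`): arcs from `z` or from `S` to the
outside of `S`. -/
def cutV (z : ℕ) (a : κ → ℕ × ℕ × ℕ) (l : List κ) (S : ℕ → Prop) [DecidablePred S] : ℕ :=
  (l.map fun k => if ((a k).1 = z ∨ S (a k).1) ∧ ¬ S (a k).2.1 then (a k).2.2 else 0).sum

/-- The value of a flow: what leaves `z`. -/
def val (z : ℕ) (a : κ → ℕ × ℕ × ℕ) (r : List (κ × ℕ)) : ℕ :=
  (r.map fun p => if (a p.1).1 = z then p.2 else 0).sum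

/-- A circulation through `z` (arcs from `z` are supplies, arcs to `z` are sinks) and a set `S`
that certifies that the flow through `z` is largest. -/
structure MF (z : ℕ) (a : κ → ℕ × ℕ × ℕ) (r : List (κ × ℕ)) (S : ℕ → Prop) : Prop where
  cap : ∀ p ∈ r, p.2 ≤ (a p.1).2.2
  cons : ∀ v, (r.map fun p => if (a p.1).2.1 = v then p.2 else 0).sum =
    (r.map fun p => if (a p.1).1 = v then p.2 else 0).sum
  nz : ¬ S z
  out : ∀ p ∈ r, (a p.1).1 = z ∨ S (a p.1).1 → ¬ S (a p.1).2.1 → p.2 = (a p.1).2.2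
  inn : ∀ p ∈ r, (a p.1).1 ≠ z → ¬ S (a p.1).1 → S (a p.1).2.1 → p.2 = 0

variable {z : ℕ} {u : κ → ℕ × ℕ × ℕ}

/-- The arcs with the reward for leaving `z`. -/
def rew (z : ℕ) (e : ℕ × ℕ × ℕ) : Arc := (e.1, e.2.1, e.2.2, if e.1 = z then -1 else 0)

theorem Cert.mf (h : Cert (fun k => rew z (u k)) r π) : MF z u r fun v => π v < π z := by
  refine ⟨h.cap, h.cons, lt_irrefl _, fun p hp h1 h2 => h.neg p hp ?_,
    fun p hp h1 h2 h3 => h.pos p hp ?_⟩
  · simp only [rew]
    rcases h1 with h1 | h1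
    · rw [if_pos h1, h1]; omega
    · split_ifs <;> omega
  · simp only [rew, if_neg h1]
    omega

/-- The value of a flow, seen from a set that does not contain `z`. -/
theorem val_eq {R : Type} [CommRing R] (l : List ι) (tl hd : ι → ℕ) (x : ι → R)
    (h : ∀ v, (l.map fun p => if hd p = v then x p else 0).sum =
      (l.map fun p => if tl p = v then x p else 0).sum) (S : ℕ → Prop) [DecidablePred S]
    (hz : ¬ S z) : (l.map fun p => if tl p = z then x p else 0).sum +
      (l.map fun p => if tl p ≠ z ∧ ¬ S (tl p) ∧ S (hd p) then x p else 0).sum =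
      (l.map fun p => if (tl p = z ∨ S (tl p)) ∧ ¬ S (hd p) then x p else 0).sum := by
  have := pot_zero l tl hd x h fun v => if S v then 1 else 0
  refine Eq.trans ?_ ((congrArg (_ + ·) this).trans (add_zero _))
  rw [← lsum_add, ← lsum_add]
  refine lsum_congr fun p _ => ?_
  by_cases h0 : tl p = z
  · by_cases h2 : S (hd p) <;> simp [h0, hz, h2]
  · by_cases h1 : S (tl p) <;> by_cases h2 : S (hd p) <;> simp [h0, h1, h2]

/-- Weak duality for integral flows. -/
theorem val_le_cutV (hc : ∀ p ∈ r, p.2 ≤ (u p.1).2.2)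
    (h : ∀ v, (r.map fun p => if (u p.1).2.1 = v then p.2 else 0).sum =
      (r.map fun p => if (u p.1).1 = v then p.2 else 0).sum) (T : ℕ → Prop) [DecidablePred T]
    (hz : ¬ T z) : val z u r ≤ cutV z u (r.map Prod.fst) T := by
  have := val_eq (z := z) r (fun p => (u p.1).1) (fun p => (u p.1).2.1) (fun p => (p.2 : ℤ))
    (fun v => by
      have := congrArg (Nat.cast : ℕ → ℤ) (h v)
      simpa only [cast_lsum, Nat.cast_ite, Nat.cast_zero] using this) T hz
  have a1 : (0 : ℤ) ≤ (r.map fun p => if (u p.1).1 ≠ z ∧ ¬ T (u p.1).1 ∧ T (u p.1).2.1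
      then (p.2 : ℤ) else 0).sum := List.sum_nonneg fun x hx => by
    obtain ⟨p, -, rfl⟩ := List.mem_map.1 hx
    split_ifs <;> omega
  have a2 : (r.map fun p => if ((u p.1).1 = z ∨ T (u p.1).1) ∧ ¬ T (u p.1).2.1
      then (p.2 : ℤ) else 0).sum ≤ (cutV z u (r.map Prod.fst) T : ℕ) := by
    rw [cutV, List.map_map, cast_lsum]
    refine lsum_le fun p hp => ?_
    have := hc p hp
    simp only [Function.comp]
    split_ifs <;> omega
  have a3 : ((val z u r : ℕ) : ℤ) = (r.map fun p => if (u p.1).1 = z then (p.2 : ℤ) else 0).sum := by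
    simp only [val, cast_lsum, Nat.cast_ite, Nat.cast_zero]
  omega

/-- The value is the capacity of the cut. -/
theorem MF.val_eq {S : ℕ → Prop} [DecidablePred S] (h : MF z u r S) :
    val z u r = cutV z u (r.map Prod.fst) S := by
  have := P305C.val_eq (z := z) r (fun p => (u p.1).1) (fun p => (u p.1).2.1)
    (fun p => (p.2 : ℤ)) (fun v => by
      have := congrArg (Nat.cast : ℕ → ℤ) (h.cons v)
      simpa only [cast_lsum, Nat.cast_ite, Nat.cast_zero] using this) S h.nz
  rw [List.sum_eq_zero (l := r.map fun p => if (u p.1).1 ≠ z ∧ ¬ S (u p.1).1 ∧ S (u p.1).2.1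
    then (p.2 : ℤ) else 0) fun x hx => by
      obtain ⟨p, hp, rfl⟩ := List.mem_map.1 hx
      split_ifs with k
      · simp [h.inn p hp k.1 k.2.1 k.2.2]
      · rfl, add_zero] at this
  zify
  simp only [val, cutV, List.map_map, cast_lsum, Nat.cast_ite, Nat.cast_zero]
  refine this.trans (lsum_congr fun p hp => ?_)
  simp only [Function.comp, Nat.cast_ite, Nat.cast_zero]
  split_ifs with k
  · rw [h.out p hp k.1 k.2]
  · rfl

/-- The set of the certificate is a minimum cut. -/
theorem MF.min_cut {S : ℕ → Prop} [DecidablePred S] (h : MF z u r S) (T : ℕ → Prop)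
    [DecidablePred T] (hz : ¬ T z) : cutV z u (r.map Prod.fst) S ≤ cutV z u (r.map Prod.fst) T :=
  h.val_eq ▸ val_le_cutV h.cap h.cons T hz

/-- The value is largest among all real flows. -/
theorem MF.max_real {S : ℕ → Prop} (h : MF z u r S) (x : κ × ℕ → ℝ)
    (h0 : ∀ p ∈ r, 0 ≤ x p ∧ x p ≤ (u p.1).2.2)
    (hx : ∀ v, (r.map fun p => if (u p.1).2.1 = v then x p else 0).sum =
      (r.map fun p => if (u p.1).1 = v then x p else 0).sum) :
    (r.map fun p => if (u p.1).1 = z then x p else 0).sum ≤ val z u r := by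
  classical
  have := P305C.val_eq (z := z) r (fun p => (u p.1).1) (fun p => (u p.1).2.1) x hx S h.nz
  have a1 : (0 : ℝ) ≤ (r.map fun p => if (u p.1).1 ≠ z ∧ ¬ S (u p.1).1 ∧ S (u p.1).2.1
      then x p else 0).sum := List.sum_nonneg fun y hy => by
    obtain ⟨p, hp, rfl⟩ := List.mem_map.1 hy
    split_ifs
    · exact (h0 p hp).1
    · exact le_rfl
  have a2 : (r.map fun p => if ((u p.1).1 = z ∨ S (u p.1).1) ∧ ¬ S (u p.1).2.1
      then x p else 0).sum ≤ (cutV z u (r.map Prod.fst) S : ℕ) := by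
    rw [cutV, List.map_map, cast_lsum]
    refine lsum_le fun p hp => ?_
    simp only [Function.comp]
    split_ifs
    · exact (h0 p hp).2
    · simp
  rw [h.val_eq]
  linarith

/-- A maximum flow through `z`; the cut is `{v | π v < π z}` for the second component `π`. -/
def mflow (mcf : ℕ → Net → M (Arr ℕ)) (b z : ℕ) (u : κ → ℕ × ℕ × ℕ) (l : List κ) :
    M (List (κ × ℕ) × Arr ℤ) := cmcf mcf b (fun k => rew z (u k)) l

theorem impl_mflow {α : Type} [Rep α] [Rep κ] {mcf : ℕ → Net → M (Arr ℕ)}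
    (h : Impl fun p : ℕ × Net => mcf p.1 p.2) {b z : α → ℕ} {u : α → κ → ℕ × ℕ × ℕ}
    {l : α → List κ} (hb : Pure b) (hz : Pure z) (hu : Pure fun p : α × κ => u p.1 p.2)
    (hl : Pure l) : Impl fun x => mflow mcf (b x) (z x) (u x) (l x) :=
  impl_cmcf h hb (by unfold rew; fun_prop) hl

/-- **Maximum flow and minimum cut.** -/
theorem mflow_vt {mcf : ℕ → Net → M (Arr ℕ)} {c : ℕ} {g : ℕ → ℕ} (h : McfOK mcf c g)
    {d B b : ℕ} {l : List κ} (hl : l.length ≤ 2 ^ b) (hu : ∀ k ∈ l, (u k).2.2 ≤ 2 ^ b)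
    (hB : 2 ^ ((11 * c + 20) * (b + 1)) ≤ B) (hd : d ≤ 3 * b + 10) :
    Vt d B (mflow mcf b z u l) fun r s => r.1.map Prod.fst = l ∧
      MF z u r.1 (fun v => r.2.get v < r.2.get z) ∧ s ≤ (l.length + 1) * cmG g b :=
  (cmcf_vt h hl (fun k hk => ⟨hu k hk, by
    have : 1 ≤ 2 ^ b := Nat.one_le_two_pow
    simp only [rew]
    split_ifs <;> omega⟩) hB hd).mono fun _ _ h => ⟨h.1, h.2.1.mf, h.2.2.2⟩

end Vale.Agent.P305C
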