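import Vale.Agent.P305C.Pd

/-!
# Minimum-cost circulations with capacities and integer costs (arrays, compact vertices)
-/

namespace Vale.Agent.P305C

open Vale.Agent.P305E Vale.Agent.P305F Finset

/-- An arc: tail, head, capacity, cost. -/
abbrev Arc : Type := ℕ × ℕ × ℕ × ℤ

/-- A circulation on the arcs `A 0, …, A (m - 1)` and potentials that certify its optimality. -/
structure CertI (m : ℕ) (A : ℕ → Arc) (f : ℕ → ℕ) (π : ℕ → ℤ) : Prop where
  cap : ∀ e < m, f e ≤ (A e).2.2.1
  cons : ∀ v, ∑ e ∈ range m, (if (A e).2.1 = v then f e else 0) =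
    ∑ e ∈ range m, (if (A e).1 = v then f e else 0)
  pos : ∀ e < m, 0 < (A e).2.2.2 + π (A e).1 - π (A e).2.1 → f e = 0
  neg : ∀ e < m, (A e).2.2.2 + π (A e).1 - π (A e).2.1 < 0 → f e = (A e).2.2.1

/-- The network without capacities: one new vertex per arc. -/
structure CircNet (N : Net) (n m K Big : ℕ) (A : ℕ → Arc) : Prop where
  lt : ∀ e < m, (A e).1 < n ∧ (A e).2.1 < n
  hn : N.n = n + m + 1
  hm : N.m = m + m + (n + m) + (n + m)
  e1 : ∀ e < m, N.tl.get e = (A e).1 + 1 ∧ N.hd.get e = n + e + 1 ∧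
    (N.c.get e : ℤ) = K + (A e).2.2.2 ∧ N.f0.get e = 0
  e2 : ∀ e < m, N.tl.get (m + e) = (A e).2.1 + 1 ∧ N.hd.get (m + e) = n + e + 1 ∧
    N.c.get (m + e) = K ∧ N.f0.get (m + e) = (A e).2.2.1
  e3 : ∀ j < n + m, N.tl.get (m + m + j) = 0 ∧ N.hd.get (m + m + j) = j + 1 ∧
    N.c.get (m + m + j) = Big ∧ N.f0.get (m + m + j) = 0
  e4 : ∀ j < n + m, N.tl.get (m + m + (n + m) + j) = j + 1 ∧ N.hd.get (m + m + (n + m) + j) = 0 ∧
    N.c.get (m + m + (n + m) + j) = Big ∧ N.f0.get (m + m + (n + m) + j) = 0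

namespace CircNet

variable {N : Net} {n m K Big : ℕ} {A : ℕ → Arc}

theorem sum_m {R : Type} [AddCommMonoid R] (h : CircNet N n m K Big A) (φ : ℕ → R) :
    ∑ e ∈ range N.m, φ e = ∑ e ∈ range m, (φ e + φ (m + e)) + ∑ j ∈ range (n + m), φ (m + m + j) +
      ∑ j ∈ range (n + m), φ (m + m + (n + m) + j) := by
  rw [h.hm, sum_range_add, sum_range_add, sum_range_add, sum_add_distrib]

theorem sum_f0 (h : CircNet N n m K Big A) (φ : ℕ → ℕ) :
    ∑ e ∈ range N.m, φ e * N.f0.get e = ∑ e ∈ range m, φ (m + e) * (A e).2.2.1 := by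
  rw [h.sum_m, sum_eq_zero (s := range (n + m)) fun e he => by
      rw [(h.e3 e (mem_range.1 he)).2.2.2, mul_zero],
    sum_eq_zero (s := range (n + m)) fun e he => by
      rw [(h.e4 e (mem_range.1 he)).2.2.2, mul_zero], add_zero, add_zero]
  exact sum_congr rfl fun e he => by
    rw [(h.e1 e (mem_range.1 he)).2.2.2, (h.e2 e (mem_range.1 he)).2.2.2, mul_zero, zero_add]

theorem ok (h : CircNet N n m K Big A) {F : ℕ} (hc : ∀ e < m, (A e).2.2.2.natAbs < K)
    (hK : 1 ≤ K) (hB : 2 * K ≤ Big) (hF : ∑ e ∈ range m, (A e).2.2.1 ≤ F) : N.OK Big F := by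
  have hm := h.hm
  have hn := h.hn
  have key : ∀ e < N.m, N.tl.get e < N.n ∧ N.hd.get e < N.n ∧ 1 ≤ N.c.get e ∧
      N.c.get e ≤ Big := by
    intro e he
    by_cases h1 : e < m
    · have := h.lt e h1
      have := h.e1 e h1
      have := hc e h1
      omega
    by_cases h2 : e < m + m
    · obtain ⟨j, rfl⟩ : ∃ j, e = m + j := ⟨e - m, by omega⟩
      have := h.lt j (by omega)
      have := h.e2 j (by omega)
      omega
    by_cases h3 : e < m + m + (n + m)
    · obtain ⟨j, rfl⟩ : ∃ j, e = m + m + j := ⟨e - (m + m), by omega⟩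
      have := h.e3 j (by omega)
      omega
    · obtain ⟨j, rfl⟩ : ∃ j, e = m + m + (n + m) + j := ⟨e - (m + m + (n + m)), by omega⟩
      have := h.e4 j (by omega)
      omega
  refine ⟨by omega, fun e he => (key e he).1, fun e he => (key e he).2.1,
    fun e he => (key e he).2.2.1, fun e he => (key e he).2.2.2, ?_, fun v hv h0 => ?_,
    fun v hv h0 => ?_⟩
  · simpa using (h.sum_f0 fun _ => 1).le.trans (by simpa using hF)
  all_goals obtain ⟨j, rfl⟩ : ∃ j, v = j + 1 := ⟨v - 1, by omega⟩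
  · exact ⟨m + m + j, by omega, (h.e3 j (by omega)).1, (h.e3 j (by omega)).2.1⟩
  · exact ⟨m + m + (n + m) + j, by omega, (h.e4 j (by omega)).1, (h.e4 j (by omega)).2.1⟩

/-- The certificate of the network gives the certificate of the circulation. -/
theorem cert (h : CircNet N n m K Big A) (hE : N.Ends)
    (hB : K * ∑ e ∈ range m, (A e).2.2.1 < Big) {f : ℕ → ℕ} {y : ℕ → ℤ} (hp : PD N f y) :
    CertI m A f fun v => y (v + 1) := by
  have hm := h.hm
  have hn := h.hn
  have c1 : N.cost f < Big := by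
    refine lt_of_le_of_lt ((hp.opt hE).2 _ Net.isFlow_f0) (lt_of_le_of_lt (le_of_eq ?_) hB)
    rw [Net.cost, h.sum_f0, mul_sum]
    exact sum_congr rfl fun e he => by rw [(h.e2 e (mem_range.1 he)).2.2.1]
  have c2 : ∀ e < N.m, N.c.get e = Big → f e = 0 := fun e he hc => by
    have := single_le_sum (f := fun e => N.c.get e * f e) (fun _ _ => Nat.zero_le _)
      (mem_range.2 he)
    by_contra h0
    have a : Big * 1 ≤ Big * f e := Nat.mul_le_mul_left _ (by omega)
    simp only [hc] at this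
    unfold Net.cost at c1
    omega
  have c3 : ∀ w < N.n, ∑ e ∈ range m, ((f e : ℤ) *
      ((if n + e + 1 = w then 1 else 0) - if (A e).1 + 1 = w then 1 else 0) +
      ((f (m + e) : ℤ) - (A e).2.2.1) *
      ((if n + e + 1 = w then 1 else 0) - if (A e).2.1 + 1 = w then 1 else 0)) = 0 := by
    intro w hw
    have := hp.flow w hw
    rw [h.sum_m, sum_eq_zero (s := range (n + m)) fun e he => by
        have := h.e3 e (mem_range.1 he)
        have he := mem_range.1 he
        rw [this.2.2.2, c2 _ (by omega) this.2.2.1]; simp,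
      sum_eq_zero (s := range (n + m)) fun e he => by
        have := h.e4 e (mem_range.1 he)
        have he := mem_range.1 he
        rw [this.2.2.2, c2 _ (by omega) this.2.2.1]; simp, add_zero, add_zero] at this
    refine Eq.trans (sum_congr rfl fun e he => ?_) this
    obtain ⟨a1, a2, -, a3⟩ := h.e1 e (mem_range.1 he)
    obtain ⟨b1, b2, -, b3⟩ := h.e2 e (mem_range.1 he)
    rw [a1, a2, a3, b1, b2, b3]
    simp
  have c4 : ∀ e < m, f e + f (m + e) = (A e).2.2.1 := fun e he => by
    have := c3 (n + e + 1) (by omega)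
    rw [sum_eq_single_of_mem e (mem_range.2 he) fun x hx hxe => by
      have := h.lt x (mem_range.1 hx)
      rw [if_neg (by omega), if_neg (by omega), if_neg (by omega)]; simp] at this
    have l := h.lt e he
    rw [if_pos rfl, if_neg (by omega), if_neg (by omega)] at this
    omega
  refine ⟨fun e he => by have := c4 e he; omega, fun v => ?_, fun e he h0 => ?_,
    fun e he h0 => ?_⟩
  · by_cases hv : v < n
    · have := c3 (v + 1) (by omega)
      zify
      rw [← sub_eq_zero, ← sum_sub_distrib]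
      refine Eq.trans (sum_congr rfl fun e he => ?_) this
      have := c4 e (mem_range.1 he)
      rw [if_neg (show ¬ n + e + 1 = v + 1 by omega)]
      simp only [Nat.add_right_cancel_iff]
      split_ifs <;> omega
    · rw [sum_eq_zero fun e he => if_neg (by have := h.lt e (mem_range.1 he); omega),
        sum_eq_zero fun e he => if_neg (by have := h.lt e (mem_range.1 he); omega)]
  · by_contra h1
    obtain ⟨a1, a2, a3, -⟩ := h.e1 e he
    obtain ⟨b1, b2, b3, -⟩ := h.e2 e he
    have k1 := hp.tight e (by omega) h1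
    have k2 := hp.feas (m + e) (by omega)
    rw [a1, a2, a3] at k1
    rw [b1, b2, b3] at k2
    omega
  · by_contra h1
    obtain ⟨a1, a2, a3, -⟩ := h.e1 e he
    obtain ⟨b1, b2, b3, -⟩ := h.e2 e he
    have k1 := hp.tight (m + e) (by omega) (by have := c4 e he; omega)
    have k2 := hp.feas e (by omega)
    rw [a1, a2, a3] at k2
    rw [b1, b2, b3] at k1
    omega

end CircNet

/-- The network is built. -/
def circNetP (n m K Big : ℕ) (A : Arr Arc) : M Net := do
  let n' ← num (n + m + 1)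
  let m2 ← num (m + m)
  let m3 ← num (m2 + (n + m))
  let m' ← num (m3 + (n + m))
  let tl ← tabM (fun e => num (if e < m then (A.get e).1 + 1 else if e < m2 then
    (A.get (e - m)).2.1 + 1 else if e < m3 then 0 else e - m3 + 1)) 0 m'
  let hd ← tabM (fun e => num (if e < m then n + e + 1 else if e < m2 then n + (e - m) + 1
    else if e < m3 then e - m2 + 1 else 0)) 0 m'
  let c ← tabM (fun e => if e < m then inum (K + (A.get e).2.2.2) >>= fun z => pure z.toNat
    else pure (if e < m2 then K else Big)) 0 m'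
  let f0 ← tabM (fun e => pure (if m ≤ e ∧ e < m2 then (A.get (e - m)).2.2.1 else 0)) 0 m'
  pure ⟨n', m', tl, hd, c, f0⟩

@[fun_prop] theorem impl_circNetP : Impl fun p : ℕ × ℕ × ℕ × ℕ × Arr Arc =>
    circNetP p.1 p.2.1 p.2.2.1 p.2.2.2.1 p.2.2.2.2 := by
  unfold circNetP
  fun_prop

theorem circNetP_tri {c : Cx} {n m K Big : ℕ} {A : Arr Arc}
    (hA : ∀ e < m, (A.get e).1 < n ∧ (A.get e).2.1 < n)
    (hc : ∀ e < m, (A.get e).2.2.2.natAbs < K) (hB : 4 * (n + m) + 1 ≤ c.B) (hK : 2 * K ≤ c.B) :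
    Tri c (circNetP n m K Big A) fun N t => CircNet N n m K Big A.get ∧ t ≤ 16 * (n + m) := by
  simp only [circNetP, Tri_bind, Tri_num, Tri_pure]
  refine ⟨by omega, by omega, by omega, by omega, ?_⟩
  refine Tri.mono (Tri.tabNum fun e he => ?_) fun tl t1 h1 => ?_
  · have := hA e
    have := hA (e - m)
    split_ifs <;> omega
  refine Tri.mono (Tri.tabNum fun e he => ?_) fun hd t2 h2 => ?_
  · split_ifs <;> omega
  refine Tri.mono (Tri.tabM (T := 0) (P := fun e (x : ℕ) => if e < m then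
    (x : ℤ) = K + (A.get e).2.2.2 else x = if e < m + m then K else Big) fun e _ => ?_)
    fun cc t3 h3 => Tri.mono Tri.tabPure fun f0 t4 h4 => ?_
  · simp only [Tri_ite, Tri_bind, Tri_inum, Tri_pure]
    refine ⟨fun he => ?_, fun he => by simp [he]⟩
    have := hc e he
    rw [if_pos he]
    omega
  refine ⟨⟨hA, rfl, rfl, fun e he => ?_, fun e he => ?_, fun j hj => ?_, fun j hj => ?_⟩,
    by omega⟩
  · have := h3.1 e (by omega)
    rw [if_pos he] at this
    simp only [h1.1 e (by omega), h2.1 e (by omega), h4.1 e (by omega), if_pos he, this, true_and]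
    exact if_neg (by omega)
  · have := h3.1 (m + e) (by omega)
    rw [if_neg (by omega), if_pos (by omega)] at this
    simp only [h1.1 (m + e) (by omega), h2.1 (m + e) (by omega), h4.1 (m + e) (by omega), this,
      if_neg (show ¬ m + e < m by omega), if_pos (show m + e < m + m by omega),
      Nat.add_sub_cancel_left, true_and]
    exact if_pos (by omega)
  · have := h3.1 (m + m + j) (by omega)
    rw [if_neg (by omega), if_neg (by omega)] at this
    simp only [h1.1 (m + m + j) (by omega), h2.1 (m + m + j) (by omega),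
      h4.1 (m + m + j) (by omega), this, if_neg (show ¬ m + m + j < m by omega),
      if_neg (show ¬ m + m + j < m + m by omega),
      if_pos (show m + m + j < m + m + (n + m) by omega), Nat.add_sub_cancel_left, true_and]
    exact if_neg (by omega)
  · have := h3.1 (m + m + (n + m) + j) (by omega)
    rw [if_neg (by omega), if_neg (by omega)] at this
    simp only [h1.1 (m + m + (n + m) + j) (by omega), h2.1 (m + m + (n + m) + j) (by omega),
      h4.1 (m + m + (n + m) + j) (by omega), this,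
      if_neg (show ¬ m + m + (n + m) + j < m by omega),
      if_neg (show ¬ m + m + (n + m) + j < m + m by omega),
      if_neg (show ¬ m + m + (n + m) + j < m + m + (n + m) by omega), Nat.add_sub_cancel_left,
      true_and]
    exact if_neg (by omega)

/-- An optimal circulation and potentials (the potential of `v` is at the position `v + 1`). -/
def circP (mcf : ℕ → Net → M (Arr ℕ)) (b n m : ℕ) (A : Arr Arc) : M (Arr ℕ × Arr ℤ) :=
  pow2 b >>= fun p => num (p + 1) >>= fun K => num (K * (p * p) + 2 * K) >>= fun Big =>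
    circNetP n m K Big A >>= fun N => num (3 * b + 4) >>= fun b' => pdP mcf b' N

theorem impl_circP {mcf : ℕ → Net → M (Arr ℕ)} (h : Impl fun p : ℕ × Net => mcf p.1 p.2) :
    Impl fun p : ℕ × ℕ × ℕ × Arr Arc => circP mcf p.1 p.2.1 p.2.2.1 p.2.2.2 := by
  have := impl_pdP h
  unfold circP
  fun_prop

theorem circ_vt {mcf : ℕ → Net → M (Arr ℕ)} {c : ℕ} {g : ℕ → ℕ} (h : McfOK mcf c g)
    {d B b n m : ℕ} {A : Arr Arc} (hA : ∀ e < m, (A.get e).1 < n ∧ (A.get e).2.1 < n ∧
      (A.get e).2.2.1 ≤ 2 ^ b ∧ (A.get e).2.2.2.natAbs ≤ 2 ^ b) (hb : n + m ≤ 2 ^ b)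
    (hB : 2 ^ (c * (3 * b + 5)) ≤ B) (hB' : 2 ^ (6 * b + 8) ≤ B) (hd : d ≤ 3 * b + 4) :
    Vt d B (circP mcf b n m A) fun r s => CertI m A.get r.1.get (fun v => r.2.get (v + 1)) ∧
      (∀ u, (r.2.get u).natAbs ≤ 2 ^ (4 * b + 4)) ∧
      s ≤ (n + m + 1) * (10 * g (3 * b + 4) + 56) := by
  have e1 : 2 ^ (3 * b + 4) = 16 * (2 ^ b * (2 ^ b * 2 ^ b)) := by ring
  have e2 : 2 ^ (4 * b + 4) = 16 * (2 ^ b * (2 ^ b * (2 ^ b * 2 ^ b))) := by ring
  have e3 : 2 ^ (3 * b + 4) ≤ B := le_trans (Nat.pow_le_pow_right (by omega) (by omega)) hB'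
  have e4 : 3 * b + 4 ≤ B := Nat.lt_two_pow_self.le.trans e3
  have hU : ∑ e ∈ range m, (A.get e).2.2.1 ≤ 2 ^ b * 2 ^ b :=
    (sum_le_card_nsmul _ _ _ fun e he => (hA e (mem_range.1 he)).2.2.1).trans (by
      simpa using (by omega : m ≤ 2 ^ b))
  have p1 : 1 ≤ 2 ^ b := Nat.one_le_two_pow
  unfold circP
  refine Vt.tbind' ?_
  rw [Tri_pow2]
  rw [e1] at e3
  generalize 2 ^ b = p at *
  have q1 : p ≤ p * p := Nat.le_mul_self p
  have q2 : p * p ≤ p * (p * p) := Nat.mul_le_mul_left _ q1
  have q3 : (p + 1) * (p * p) + 2 * (p + 1) ≤ 6 * (p * (p * p)) := by nlinarith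
  refine ⟨by dsimp only; omega, Vt.num_bind (by omega) (Vt.num_bind (by omega) ?_)⟩
  refine Vt.tbind (cn := true) (circNetP_tri (fun e he => ⟨(hA e he).1, (hA e he).2.1⟩)
    (fun e he => Nat.lt_succ_of_le (hA e he).2.2.2) (by dsimp only; omega)
    (by dsimp only; omega)) ?_
  rintro N t ⟨hN, ht⟩
  have hO := hN.ok (fun e he => Nat.lt_succ_of_le (hA e he).2.2.2) (by omega) (by omega) hU
  have hn := hN.hn
  have hm := hN.hm
  refine Vt.num_bind e4 ((pd_vt h hO (by omega) ?_ (by omega) hB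
    (by rwa [show 2 * (3 * b + 4) = 6 * b + 8 by ring]) hd).mono ?_)
  · have := Nat.mul_le_mul_right (p * p) (show N.m + 1 ≤ 5 * p by omega)
    unfold pF
    nlinarith
  · rintro r s ⟨r1, r2, r3⟩
    refine ⟨hN.cert hO.ends ?_ r1, fun u => (r2 u).trans ?_, ?_⟩
    · have := Nat.mul_le_mul_left (p + 1) hU
      omega
    · have := Nat.mul_le_mul (show N.n ≤ 2 * p by omega) q3
      nlinarith
    · have := Nat.mul_le_mul_right (2 * g (3 * b + 4) + 8)
        (show N.n + N.m + 1 ≤ 5 * (n + m + 1) by omega)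
      nlinarith

end Vale.Agent.P305C
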