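import Vale.Agent.P305C.Vt
import Vale.Agent.P305F.Bip
import Vale.Agent.P305F.End3

/-!
# Optimal flows together with optimal potentials, from two calls of the flow solver
-/

namespace Vale.Agent.P305C

open Vale.Agent.P305E Vale.Agent.P305F Finset

/-- The network with the perturbed demands and the old costs. -/
def up (N : Net) : Net := ⟨N.n, N.m, N.tl, N.hd, N.c, (N.pert 0 (Arr.const 0)).f0⟩

/-- A flow and potentials that certify each other. -/
structure PD (N : Net) (f : ℕ → ℕ) (y : ℕ → ℤ) : Prop where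
  flow : N.IsFlow f
  feas : ∀ e < N.m, y (N.hd.get e) - y (N.tl.get e) ≤ N.c.get e
  tight : ∀ e < N.m, f e ≠ 0 → y (N.hd.get e) - y (N.tl.get e) = N.c.get e

variable {N : Net} {C F : ℕ}

theorem up_OK (h : N.OK C F) : (up N).OK C (pF N.m F) := by
  refine ⟨h.npos, h.tl_lt, h.hd_lt, h.c_pos, h.c_le, ?_, h.out, h.inn⟩
  show ∑ e ∈ range N.m, (N.pert 0 (Arr.const 0)).f0.get e ≤ _
  rw [sum_congr rfl fun e he => Net.pert_f0 (mem_range.1 he), sum_add_distrib, ← mul_sum]
  exact add_le_add (Nat.mul_le_mul_left _ h.f_le) Net.sum_chi_le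

/-- The cost of a circulation, computed with slacks. -/
theorem circ_cost (hE : N.Ends) {g : ℕ → ℤ} (hg : N.Circ g) (y : ℕ → ℤ) :
    ∑ e ∈ range N.m, g e * (N.c.get e - (y (N.hd.get e) - y (N.tl.get e))) =
      ∑ e ∈ range N.m, N.c.get e * g e := by
  have := hg.sum_eq hE y
  simp only [Int.cast_id] at this
  simp only [mul_sub (g _) (N.c.get _ : ℤ), sum_sub_distrib, this, sub_zero, mul_comm]

/-- Tree potentials of an optimal flow with spanning support certify it. -/
theorem pd_of_tree (hE : N.Ends) {f : ℕ → ℕ} (hf : N.OptFlow f) {o : List (ℕ × ℕ)} (ho : N.Gd o)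
    (hs : ∀ e, ar o e → f e ≠ 0) (hv : ∀ u < N.n, vs o u) {y : ℕ → ℤ}
    (hy : ∀ e, ar o e → y (N.hd.get e) - y (N.tl.get e) = N.c.get e) : PD N f y := by
  have key : ∀ e < N.m, ¬ ar o e → 0 ≤ N.c.get e - (y (N.hd.get e) - y (N.tl.get e)) ∧
      (f e ≠ 0 → N.c.get e - (y (N.hd.get e) - y (N.tl.get e)) ≤ 0) := by
    intro e he hne
    obtain ⟨D, d1, d2, hc⟩ := ho.cycle hE hv he
    have e1 : ∑ x ∈ range N.m, N.c.get x * ((if x = e then 1 else 0) + D x) =
        N.c.get e - (y (N.hd.get e) - y (N.tl.get e)) := by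
      rw [← circ_cost hE hc y, sum_eq_single_of_mem e (mem_range.2 he)]
      · simp [d1 e hne]
      · intro x _ hx
        by_cases h1 : ar o x
        · simp [hy x h1]
        · simp [d1 x h1, hx]
    refine ⟨e1 ▸ hf.circ hc fun x _ => ?_, fun h0 => ?_⟩
    · have := d2 x
      by_cases hx : ar o x
      · have := hs x hx
        split_ifs <;> omega
      · have := d1 x hx
        split_ifs <;> omega
    · have hc' : N.Circ fun x => -((if x = e then 1 else 0) + D x) := fun v hv => by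
        simp only [neg_mul, sum_neg_distrib, hc v hv, neg_zero]
      have h2 := hf.circ hc' fun x _ => by
        have := d2 x
        by_cases hx : ar o x
        · have := hs x hx
          have : x ≠ e := fun h => hne (h ▸ hx)
          split_ifs <;> omega
        · have := d1 x hx
          split_ifs with h3
          · subst h3; omega
          · omega
      simp only [mul_neg, sum_neg_distrib, e1] at h2
      omega
  refine ⟨hf.1, fun e he => ?_, fun e he h0 => ?_⟩
  · by_cases h1 : ar o e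
    · exact (hy e h1).le
    · have := (key e he h1).1
      omega
  · by_cases h1 : ar o e
    · exact hy e h1
    · have := (key e he h1).1
      have := (key e he h1).2 h0
      omega

theorem circ_sub {f g : ℕ → ℕ} (hf : N.IsFlow f) (hg : N.IsFlow g) :
    N.Circ fun e => (g e : ℤ) - f e := fun v hv => by
  have a := congrArg₂ (· - ·) (hg v hv) (hf v hv)
  simp only [sub_zero, ← sum_sub_distrib] at a
  refine Eq.trans (sum_congr rfl fun e _ => ?_) a
  simp only [Net.inc]
  ring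

/-- A flow that is not dearer than a certified flow is certified by the same potentials. -/
theorem PD.of_le (hE : N.Ends) {f g : ℕ → ℕ} {y : ℕ → ℤ} (h : PD N f y) (hg : N.IsFlow g)
    (hc : N.cost g ≤ N.cost f) : PD N g y := by
  have e1 := circ_cost hE (circ_sub h.flow hg) y
  have e2 : ∑ e ∈ range N.m, (N.c.get e : ℤ) * ((g e : ℤ) - f e) = N.cost g - N.cost f := by
    simp only [Net.cost, mul_sub, sum_sub_distrib]
    push_cast
    rfl
  have e3 : ∑ e ∈ range N.m, ((g e : ℤ) - f e) * (N.c.get e - (y (N.hd.get e) - y (N.tl.get e))) =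
      ∑ e ∈ range N.m, (g e : ℤ) * (N.c.get e - (y (N.hd.get e) - y (N.tl.get e))) := by
    refine sum_congr rfl fun e he => ?_
    by_cases h0 : f e = 0
    · simp [h0]
    · simp [h.tight e (mem_range.1 he) h0]
  have nn : ∀ e ∈ range N.m, 0 ≤ (g e : ℤ) * (N.c.get e - (y (N.hd.get e) - y (N.tl.get e))) :=
    fun e he => mul_nonneg (Int.natCast_nonneg _) (sub_nonneg.2 (h.feas e (mem_range.1 he)))
  refine ⟨hg, h.feas, fun e he h0 => ?_⟩
  have := (sum_eq_zero_iff_of_nonneg nn).1 (le_antisymm (by omega) (sum_nonneg nn)) e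
    (mem_range.2 he)
  rcases mul_eq_zero.1 this with a | a <;> omega

theorem PD.opt (hE : N.Ends) {f : ℕ → ℕ} {y : ℕ → ℤ} (h : PD N f y) : N.OptFlow f := by
  refine ⟨h.flow, fun g hg => ?_⟩
  have e1 := circ_cost hE (circ_sub h.flow hg) y
  have e2 : ∑ e ∈ range N.m, (N.c.get e : ℤ) * ((g e : ℤ) - f e) = N.cost g - N.cost f := by
    simp only [Net.cost, mul_sub, sum_sub_distrib]
    push_cast
    rfl
  have : 0 ≤ ∑ e ∈ range N.m,
      ((g e : ℤ) - f e) * (N.c.get e - (y (N.hd.get e) - y (N.tl.get e))) := by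
    refine sum_nonneg fun e he => ?_
    by_cases h0 : f e = 0
    · simpa [h0] using
        mul_nonneg (Int.natCast_nonneg (g e)) (sub_nonneg.2 (h.feas e (mem_range.1 he)))
    · simp [h.tight e (mem_range.1 he) h0]
  omega

theorem exists_uopt (h : N.OK C F) : ∃ (wb : ℕ) (w : Arr ℕ), (∀ j, w.get j < 2 ^ wb) ∧
    ∃ f, (N.pert (2 ^ wb * (C * F + 1)) w).UOpt f := by
  classical
  obtain ⟨wb, hw⟩ : ∃ wb, 10 * N.m * ((C + 1) * pF N.m F) ≤ 2 ^ wb := ⟨_, Nat.lt_two_pow_self.le⟩
  by_contra hn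
  have ht := Tri.tabM (c := ⟨2 ^ wb, true⟩) (g := fun _ => rbits wb) (d := 0) (m := N.m)
    (P := fun _ x => x < 2 ^ wb) (T := 2 * wb) fun _ _ =>
      (Tri.rbits le_rfl).mono fun _ _ h => ⟨h.1, h.2.le⟩
  have h1 := (const_le_wp_of_Tri ht (x := 1) (fun w _ hw => ?_) 0).trans (wp_isolate h le_rfl hw)
  · norm_num at h1
  · have hw' : ∀ j, w.get j < 2 ^ wb := fun j => by
      rcases lt_or_ge j N.m with h | h
      · exact hw.1 j h
      · rw [hw.2.1 j h]; positivity
    rw [if_pos ⟨hw', fun hf => hn ⟨wb, w, hw', hf⟩⟩]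

/-- Potentials that are optimal for the perturbed demands are optimal for the old demands. -/
theorem PD.down (h : N.OK C F) {f' : ℕ → ℕ} {y : ℕ → ℤ} (hp : PD (up N) f' y) {f : ℕ → ℕ}
    (hf : N.OptFlow f) : PD N f y := by
  have hF : F ≤ pF N.m F := by unfold pF; nlinarith
  have h2 : N.OK C (pF N.m F) := ⟨h.npos, h.tl_lt, h.hd_lt, h.c_pos, h.c_le, h.f_le.trans hF,
    h.out, h.inn⟩
  have hE' : (up N).Ends := h.ends
  obtain ⟨wb, w, hw, k, hk⟩ := exists_uopt h2
  have hk1 : (up N).IsFlow k := hk.1.1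
  have hk2 : (up N).cost k ≤ (up N).cost f' := by
    have a1 := hk.1.2 f' hp.flow
    rw [Net.pert_cost, Net.pert_cost] at a1
    have a2 : ∑ e ∈ range N.m, w.get e * f' e ≤ 2 ^ wb * N.cost f' := by
      rw [Net.cost, mul_sum]
      refine sum_le_sum fun e he => Nat.mul_le_mul (hw e).le ?_
      exact Nat.le_mul_of_pos_left _ (h.c_pos e (mem_range.1 he))
    have a3 : N.cost f' ≤ C * pF N.m F :=
      ((hp.opt hE').2 _ Net.isFlow_f0).trans (Net.cost_f0 (up_OK h))
    have a4 := Nat.mul_le_mul_left (2 ^ wb) a3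
    have a5 : 0 < 2 ^ wb := by positivity
    show N.cost k ≤ N.cost f'
    by_contra a6
    have a7 := Nat.mul_le_mul_left (2 ^ wb * (C * pF N.m F + 1))
      (Nat.add_one_le_of_lt (not_le.1 a6))
    rw [mul_add, mul_one] at a7
    have a8 : 2 ^ wb * (C * pF N.m F + 1) = 2 ^ wb * (C * pF N.m F) + 2 ^ wb := by ring
    omega
  have hq := hp.of_le hE' hk1 hk2
  obtain ⟨o, o1, o2, o3⟩ := Net.exists_gd h.ends h.npos fun e => k e ≠ 0
  have hv : ∀ u < N.n, vs o u := fun u hu => Net.pert_conn h2 hk.1.1 (Or.inl rfl) o3 hu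
  classical
  choose! D d1 _ d3 using fun e (he : e < N.m) => o1.cycle h.ends hv he
  set g : ℕ → ℤ := fun x => ∑ e ∈ range N.m,
    -(if ar o e then 0 else (N.f0.get e : ℤ)) * ((if x = e then 1 else 0) + D e x) with hg
  have g1 : N.Circ g := fun v hv => by
    simp only [hg, sum_mul, mul_assoc]
    rw [sum_comm]
    exact sum_eq_zero fun e he => by rw [← mul_sum, d3 e (mem_range.1 he) v hv, mul_zero]
  have g2 : ∀ e < N.m, ¬ ar o e → N.f0.get e + g e = 0 := fun e he hne => by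
    simp only [hg]
    rw [sum_eq_single_of_mem e (mem_range.2 he)]
    · simp [hne, d1 e he e hne]
    · intro x hx hxe
      simp [d1 x (mem_range.1 hx) e hne, hxe.symm]
  have g3 : ∀ e < N.m, (((N.f0.get e + g e).toNat : ℕ) : ℤ) = N.f0.get e + g e := fun e he =>
    Int.toNat_of_nonneg (Net.tree_nonneg h2 hk o1 o2 hv g1 g2 he)
  have g4 : N.IsFlow fun e => (N.f0.get e + g e).toNat := fun v hv => by
    refine Eq.trans (sum_congr rfl fun e he => ?_) (g1 v hv)
    rw [g3 e (mem_range.1 he), Net.inc]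
    ring
  refine PD.of_le h.ends ⟨g4, hp.feas, fun e he h0 => hq.tight e he (o2 e (by_contra fun hx => ?_))⟩
    hf.1 (hf.2 _ g4)
  simp [g2 e he hx] at h0

/-- An optimal flow and optimal potentials. -/
def pdP (mcf : ℕ → Net → M (Arr ℕ)) (b : ℕ) (N : Net) : M (Arr ℕ × Arr ℤ) :=
  tabM (fun e => num ((N.m + 1) * N.f0.get e +
      if N.tl.get e = 0 ∧ N.hd.get e ≠ 0 then 1 else 0)) 0 N.m >>= fun f0 =>
    mcf b ⟨N.n, N.m, N.tl, N.hd, N.c, f0⟩ >>= fun f' => rangeP N.m >>= fun el =>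
      filterP (fun e => decide (f'.get e ≠ 0)) el >>= fun l => search N l >>= fun s =>
        mcf b N >>= fun f => pure (f, s.2.1)

theorem impl_pdP {mcf : ℕ → Net → M (Arr ℕ)} (h : Impl fun p : ℕ × Net => mcf p.1 p.2) :
    Impl fun p : ℕ × Net => pdP mcf p.1 p.2 := by
  unfold pdP
  fun_prop

theorem pd_vt {mcf : ℕ → Net → M (Arr ℕ)} {c : ℕ} {g : ℕ → ℕ} (h : McfOK mcf c g) {d B b : ℕ}
    (hN : N.OK C F) (hC : C ≤ 2 ^ b) (hF : pF N.m F ≤ 2 ^ b) (hb : N.n + N.m ≤ 2 ^ b)
    (hB : 2 ^ (c * (b + 1)) ≤ B) (hB' : 2 ^ (2 * b) ≤ B) (hd : d ≤ b) :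
    Vt d B (pdP mcf b N) fun r s => PD N r.1.get r.2.get ∧ (∀ u, (r.2.get u).natAbs ≤ N.n * C) ∧
      s ≤ (N.n + N.m + 1) * (2 * g b + 8) := by
  have hU := up_OK hN
  have mono : ∀ {N : Net} {F : ℕ}, N.OK C F → F ≤ 2 ^ b → N.OK (2 ^ b) (2 ^ b) := fun h hF =>
    ⟨h.npos, h.tl_lt, h.hd_lt, h.c_pos, fun e he => (h.c_le e he).trans hC, h.f_le.trans hF,
      h.out, h.inn⟩
  have hF0 : F ≤ pF N.m F := by unfold pF; nlinarith
  have h2 : 2 ^ (2 * b) = 2 ^ b * 2 ^ b := by rw [two_mul, pow_add]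
  have h3 : 2 ^ b ≤ B := le_trans (Nat.pow_le_pow_right (by omega) (by omega)) hB'
  refine Vt.tbind (cn := true) (Tri.tabM (T := 0)
    (P := fun e x => x = (up N).f0.get e) fun e he => ?_) ?_
  · have := le_trans (single_le_sum (f := (up N).f0.get)
      (fun _ _ => Nat.zero_le _) (mem_range.2 he)) hU.f_le
    have e1 : (up N).f0.get e = _ := Net.pert_f0 (Big := 0) (w := Arr.const 0) he
    rw [e1, Net.chi] at this ⊢
    simp only [Tri_num, le_refl, and_true]
    omega
  rintro f0 t0 ⟨f1, f2, f3⟩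
  have e2 : f0 = (up N).f0 := by
    ext e
    rcases lt_or_ge e N.m with he | he
    · exact f1 e he
    · exact (f2 e he).trans (if_neg (not_lt.2 he)).symm
  rw [e2]
  refine (mcf_vt h (N := up N) (mono hU hF) hb hB hd).bind ?_
  rintro f' _ ⟨hf', rfl⟩
  refine Vt.tbind' ?_
  rw [Tri_rangeP]
  refine Vt.tbind' ?_
  rw [Tri_filterP]
  have hl : ∀ e, e ∈ (List.range N.m).filter (fun e => decide (f'.get e ≠ 0)) ↔
      e < N.m ∧ f'.get e ≠ 0 := fun e => by simp
  have hlen := List.length_filter_le (fun e => decide (f'.get e ≠ 0)) (List.range N.m)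
  rw [List.length_range] at hlen ⊢
  generalize (List.range N.m).filter (fun e => decide (f'.get e ≠ 0)) = l at hl hlen ⊢
  refine Vt.tbind (cn := true) (search_tri hN (fun e he => ((hl e).1 he).1)
    (le_trans (h2 ▸ Nat.mul_le_mul (by omega) hC) hB')) ?_
  rintro s t1 ⟨s1, s2, s3⟩
  refine (mcf_vt h (mono hN (hF0.trans hF)) hb hB hd).bind ?_
  rintro f _ ⟨hf, rfl⟩
  have hgd : (up N).Gd s.2.2 := by
    have : ∀ o, N.Gd o → (up N).Gd o := by
      intro o
      induction o with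
      | nil => exact id
      | cons p o ih => exact fun h => ⟨ih h.1, h.2⟩
    exact this _ s1.gd
  refine Vt.pure ⟨PD.down hN (pd_of_tree (N := up N) hN.ends hf' hgd
    (fun e he => ((hl e).1 (s1.sub e he)).2) (fun u hu => ?_) s1.pot) hf, fun u => ?_, ?_⟩
  · exact Net.pert_conn (Big := 0) (w := Arr.const 0) hN hf'.1 (Or.inl rfl)
      (fun e he h0 => s2 e ((hl e).2 ⟨he, h0⟩)) hu
  · exact (s1.bd u).trans (Nat.mul_le_mul_right _ (s1.gd.length_lt hN.ends hN.npos).le)
  · have : (up N).n + (up N).m + 1 = N.n + N.m + 1 := rfl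
    rw [this]
    have := hN.npos
    nlinarith

end Vale.Agent.P305C
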